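import Mathlib

/-! # P227/M/GAL: abstract Galerkin argument in a Gaussian weight.
`A` = algebra of smooth functions of temperate growth, `I` = integral against `exp(-s|x|²/2)`. -/

namespace Vale.Agent.P227.M.GAL

open Finset

/-- abstract algebra of temperate functions with commuting derivations and a Gaussian integral -/
structure GAlg (n : ℕ) (A : Type) [CommRing A] [Algebra ℝ A] where
  D : Fin n → A →ₗ[ℝ] A
  leib : ∀ a f g, D a (f * g) = D a f * g + f * D a g
  comm : ∀ a b f, D a (D b f) = D b (D a f)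
  X : Fin n → A
  DX : ∀ a b, D a (X b) = if a = b then 1 else 0
  I : A →ₗ[ℝ] ℝ
  I_sq : ∀ f, 0 ≤ I (f * f)
  s : ℝ
  s_pos : 0 < s
  ibp : ∀ a f, I (D a f) = s * I (X a * f)

variable {n : ℕ} {A : Type} [CommRing A] [Algebra ℝ A] (S : GAlg n A)

namespace GAlg

/-- the Sobolev type bilinear forms -/
def bm (S : GAlg n A) : ℕ → A → A → ℝ
  | 0, F, G => S.I (F * G)
  | m + 1, F, G => bm S m F G + ∑ a, bm S m (S.D a F) (S.D a G)

theorem bm_symm : ∀ (m : ℕ) (F G : A), S.bm m F G = S.bm m G F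
  | 0, F, G => by simp only [bm, mul_comm]
  | m + 1, F, G => by
      simp only [bm, bm_symm m F G]
      congr 1
      exact sum_congr rfl (fun a _ => bm_symm m _ _)

theorem bm_add_left : ∀ (m : ℕ) (F F' G : A), S.bm m (F + F') G = S.bm m F G + S.bm m F' G
  | 0, F, F', G => by simp only [bm, add_mul, map_add]
  | m + 1, F, F', G => by
      simp only [bm, bm_add_left m, map_add, sum_add_distrib]
      ring

theorem bm_smul_left : ∀ (m : ℕ) (t : ℝ) (F G : A), S.bm m (t • F) G = t * S.bm m F G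
  | 0, t, F, G => by simp only [bm, smul_mul_assoc, map_smul, smul_eq_mul]
  | m + 1, t, F, G => by
      simp only [bm, bm_smul_left m, map_smul, mul_add, mul_sum]

theorem bm_add_right (m : ℕ) (F G G' : A) : S.bm m F (G + G') = S.bm m F G + S.bm m F G' := by
  rw [S.bm_symm, S.bm_add_left, S.bm_symm m G, S.bm_symm m G']

theorem bm_smul_right (m : ℕ) (t : ℝ) (F G : A) : S.bm m F (t • G) = t * S.bm m F G := by
  rw [S.bm_symm, S.bm_smul_left, S.bm_symm m G]

theorem bm_neg_left (m : ℕ) (F G : A) : S.bm m (-F) G = - S.bm m F G := by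
  have := S.bm_smul_left m (-1) F G
  simpa using this

theorem bm_neg_right (m : ℕ) (F G : A) : S.bm m F (-G) = - S.bm m F G := by
  rw [S.bm_symm, S.bm_neg_left, S.bm_symm]

theorem bm_sub_left (m : ℕ) (F F' G : A) : S.bm m (F - F') G = S.bm m F G - S.bm m F' G := by
  rw [sub_eq_add_neg, S.bm_add_left, S.bm_neg_left]; ring

theorem bm_zero_left (m : ℕ) (G : A) : S.bm m 0 G = 0 := by
  have := S.bm_smul_left m 0 0 G
  simpa using this

theorem bm_sum_left {ι : Type*} (m : ℕ) (s : Finset ι) (f : ι → A) (G : A) :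
    S.bm m (∑ i ∈ s, f i) G = ∑ i ∈ s, S.bm m (f i) G := by
  classical
  induction s using Finset.induction_on with
  | empty => simp [S.bm_zero_left]
  | insert i s hi ih => rw [sum_insert hi, sum_insert hi, S.bm_add_left, ih]

/-- the norms squared -/
def q (S : GAlg n A) (m : ℕ) (F : A) : ℝ := S.bm m F F

theorem q_nonneg : ∀ (m : ℕ) (F : A), 0 ≤ S.q m F
  | 0, F => S.I_sq F
  | m + 1, F => add_nonneg (q_nonneg m F) (sum_nonneg (fun a _ => q_nonneg m _))

theorem q_zero (F : A) : S.q 0 F = S.I (F * F) := rfl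

theorem q_succ (m : ℕ) (F : A) : S.q (m + 1) F = S.q m F + ∑ a, S.q m (S.D a F) := rfl

theorem q_le_succ (m : ℕ) (F : A) : S.q m F ≤ S.q (m + 1) F := by
  rw [q_succ]
  have := sum_nonneg (s := (univ : Finset (Fin n))) (fun a _ => S.q_nonneg m (S.D a F))
  linarith

theorem q_mono {m k : ℕ} (h : m ≤ k) (F : A) : S.q m F ≤ S.q k F := by
  induction h with
  | refl => exact le_rfl
  | step _ ih => exact ih.trans (S.q_le_succ _ F)

theorem q_D_le (m : ℕ) (a : Fin n) (F : A) : S.q m (S.D a F) ≤ S.q (m + 1) F := by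
  rw [q_succ]
  have h1 := single_le_sum (f := fun a => S.q m (S.D a F)) (fun a _ => S.q_nonneg m _) (mem_univ a)
  have h2 := S.q_nonneg m F
  linarith

theorem sum_q_D_le (m : ℕ) (F : A) : ∑ a, S.q m (S.D a F) ≤ S.q (m + 1) F := by
  rw [q_succ]
  have h2 := S.q_nonneg m F
  linarith

theorem q_smul (m : ℕ) (t : ℝ) (F : A) : S.q m (t • F) = t ^ 2 * S.q m F := by
  unfold q
  rw [S.bm_smul_left, S.bm_smul_right]; ring

theorem q_neg (m : ℕ) (F : A) : S.q m (-F) = S.q m F := by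
  unfold q
  rw [S.bm_neg_left, S.bm_neg_right]; ring

theorem q_add_le (m : ℕ) (F G : A) : S.q m (F + G) ≤ 2 * S.q m F + 2 * S.q m G := by
  have h := S.q_nonneg m (F - G)
  have e1 : S.q m (F - G) = S.q m F - 2 * S.bm m F G + S.q m G := by
    unfold q
    rw [sub_eq_add_neg, S.bm_add_left, S.bm_add_right, S.bm_add_right, S.bm_neg_left, S.bm_neg_left,
      S.bm_neg_right, S.bm_neg_right, S.bm_symm m G F]
    ring
  have e2 : S.q m (F + G) = S.q m F + 2 * S.bm m F G + S.q m G := by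
    unfold q
    rw [S.bm_add_left, S.bm_add_right, S.bm_add_right, S.bm_symm m G F]
    ring
  rw [e1] at h
  rw [e2]; linarith

theorem q_sub_le (m : ℕ) (F G : A) : S.q m (F - G) ≤ 2 * S.q m F + 2 * S.q m G := by
  rw [sub_eq_add_neg]
  have := S.q_add_le m F (-G)
  rwa [S.q_neg] at this

/-- Young: `2 ⟨F,G⟩ ≤ t |F|² + t⁻¹ |G|²` -/
theorem young (m : ℕ) (F G : A) {t : ℝ} (ht : 0 < t) :
    2 * S.bm m F G ≤ t * S.q m F + t⁻¹ * S.q m G := by
  have h := S.q_nonneg m (t • F - G)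
  have e1 : S.q m (t • F - G) = t ^ 2 * S.q m F - 2 * t * S.bm m F G + S.q m G := by
    unfold q
    rw [sub_eq_add_neg, S.bm_add_left, S.bm_add_right, S.bm_add_right, S.bm_neg_left, S.bm_neg_left,
      S.bm_neg_right, S.bm_neg_right, S.bm_symm m G (t • F)]
    simp only [S.bm_smul_left, S.bm_smul_right]
    ring
  rw [e1] at h
  have h2 : 0 ≤ t⁻¹ * (t ^ 2 * S.q m F - 2 * t * S.bm m F G + S.q m G) :=
    mul_nonneg (inv_pos.mpr ht).le h
  have h3 : t⁻¹ * (t ^ 2 * S.q m F - 2 * t * S.bm m F G + S.q m G) =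
      t * S.q m F - 2 * S.bm m F G + t⁻¹ * S.q m G := by
    field_simp
  rw [h3] at h2
  linarith

theorem young_neg (m : ℕ) (F G : A) {t : ℝ} (ht : 0 < t) :
    -(2 * S.bm m F G) ≤ t * S.q m F + t⁻¹ * S.q m G := by
  have := S.young m (-F) G ht
  rw [S.bm_neg_left, S.q_neg] at this
  linarith

theorem q_sum_le {ι : Type*} (m : ℕ) (s : Finset ι) (f : ι → A) :
    S.q m (∑ i ∈ s, f i) ≤ (s.card : ℝ) * ∑ i ∈ s, S.q m (f i) := by
  classical
  induction s using Finset.induction_on with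
  | empty => simp [q, S.bm_zero_left]
  | insert i s hi ih =>
    rw [sum_insert hi, sum_insert hi, card_insert_of_notMem hi]
    push_cast
    rcases Nat.eq_zero_or_pos s.card with h0 | hpos
    · have : s = ∅ := card_eq_zero.mp h0
      subst this
      simp
    · have hc : (0 : ℝ) < s.card := by exact_mod_cast hpos
      have hy := S.young m (f i) (∑ i ∈ s, f i) hc
      have e2 : S.q m (f i + ∑ i ∈ s, f i) =
          S.q m (f i) + 2 * S.bm m (f i) (∑ i ∈ s, f i) + S.q m (∑ i ∈ s, f i) := by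
        unfold q
        rw [S.bm_add_left, S.bm_add_right, S.bm_add_right, S.bm_symm m (∑ i ∈ s, f i) (f i)]
        ring
      rw [e2]
      have h3 : (s.card : ℝ)⁻¹ * S.q m (∑ i ∈ s, f i) ≤ ∑ i ∈ s, S.q m (f i) := by
        rw [inv_mul_le_iff₀ hc]; exact ih
      nlinarith [S.q_nonneg m (f i)]

/-! ### multiplication by bounded elements and by coordinates -/

/-- class of multipliers with bounded derivatives of all orders -/
structure BCls (S : GAlg n A) where
  B : Set A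
  closed : ∀ b ∈ B, ∀ a, S.D a b ∈ B
  bound : ∀ b ∈ B, ∃ C : ℝ, 0 ≤ C ∧ ∀ F, S.q 0 (b * F) ≤ C * S.q 0 F

theorem q_mul_le (K : BCls S) (m : ℕ) : ∀ b ∈ K.B, ∃ C : ℝ, 0 ≤ C ∧ ∀ F, S.q m (b * F) ≤ C * S.q m F := by
  induction m with
  | zero => exact K.bound
  | succ m ih =>
    intro b hb
    obtain ⟨C0, hC0, h0⟩ := ih b hb
    choose C hC h using fun a => ih (S.D a b) (K.closed b hb a)
    refine ⟨C0 + ∑ a, (2 * C a + 2 * C0), add_nonneg hC0 (sum_nonneg (fun a _ => add_nonneg (mul_nonneg two_pos.le (hC a)) (mul_nonneg two_pos.le hC0))), ?_⟩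
    · intro F
      rw [q_succ]
      have h1 : ∑ a, S.q m (S.D a (b * F)) ≤ ∑ a, (2 * C a + 2 * C0) * S.q (m + 1) F := by
        refine sum_le_sum (fun a _ => ?_)
        rw [S.leib]
        have e1 := S.q_add_le m (S.D a b * F) (b * S.D a F)
        have e2 := h a F
        have e3 := h0 (S.D a F)
        have e4 := S.q_D_le m a F
        have e5 := S.q_le_succ m F
        have e6 := mul_le_mul_of_nonneg_left e4 hC0
        have e7 := mul_le_mul_of_nonneg_left e5 (hC a)
        linarith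
      have h2 := h0 F
      have h3 := mul_le_mul_of_nonneg_left (S.q_le_succ m F) hC0
      rw [← sum_mul] at h1
      rw [add_mul]
      linarith

/-- multiplication by a coordinate costs one derivative -/
theorem q_X_mul_le (m : ℕ) : ∃ C : ℝ, 0 ≤ C ∧ ∀ b F, S.q m (S.X b * F) ≤ C * S.q (m + 1) F := by
  induction m with
  | zero =>
    have hs := S.s_pos
    refine ⟨2 / S.s * (1 + 2 / S.s), by positivity, ?_⟩
    intro b F
    have h1 := S.ibp b (S.X b * (F * F))
    rw [S.leib, S.DX, if_pos rfl, S.leib, one_mul, map_add, mul_add, map_add] at h1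
    have e1 : S.X b * (S.D b F * F) = (S.X b * F) * S.D b F := by ring
    have e2 : S.X b * (F * S.D b F) = (S.X b * F) * S.D b F := by ring
    have e3 : S.X b * (S.X b * (F * F)) = (S.X b * F) * (S.X b * F) := by ring
    rw [e1, e2, e3] at h1
    have hy := S.young 0 (S.X b * F) (S.D b F) (t := S.s / 2) (by positivity)
    have i1 : S.bm 0 (S.X b * F) (S.D b F) = S.I ((S.X b * F) * S.D b F) := rfl
    have i2 : S.q 0 (S.X b * F) = S.I ((S.X b * F) * (S.X b * F)) := rfl
    have i3 : S.q 0 F = S.I (F * F) := rfl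
    have h4 := S.q_D_le 0 b F
    have h5 := S.q_le_succ 0 F
    rw [i1] at hy
    rw [← i2, ← i3] at h1
    have h6 : S.s / 2 * S.q 0 (S.X b * F) ≤ S.q 0 F + (S.s / 2)⁻¹ * S.q 0 (S.D b F) := by linarith
    have h7 : S.q 0 F + (S.s / 2)⁻¹ * S.q 0 (S.D b F) ≤ (1 + 2 / S.s) * S.q (0 + 1) F := by
      have : (S.s / 2)⁻¹ = 2 / S.s := by field_simp
      rw [this, add_mul, one_mul]
      have := mul_le_mul_of_nonneg_left h4 (show (0 : ℝ) ≤ 2 / S.s by positivity)
      linarith
    have h8 : S.q 0 (S.X b * F) = 2 / S.s * (S.s / 2 * S.q 0 (S.X b * F)) := by field_simp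
    rw [h8, mul_assoc]
    exact mul_le_mul_of_nonneg_left (h6.trans h7) (by positivity)
  | succ m ih =>
    obtain ⟨C, hC, h⟩ := ih
    refine ⟨C + n * (2 + 2 * C), by positivity, ?_⟩
    intro b F
    rw [q_succ]
    have h1 : ∑ a, S.q m (S.D a (S.X b * F)) ≤ ∑ _a : Fin n, (2 + 2 * C) * S.q (m + 2) F := by
      refine sum_le_sum (fun a _ => ?_)
      rw [S.leib, S.DX]
      have e1 := S.q_add_le m ((if a = b then 1 else 0) * F) (S.X b * S.D a F)
      have e2 := h b (S.D a F)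
      have e3 := S.q_D_le (m + 1) a F
      have e4 : S.q m ((if a = b then 1 else 0) * F) ≤ S.q (m + 2) F := by
        split_ifs
        · rw [one_mul]; exact S.q_mono (by omega) F
        · rw [zero_mul]
          have : S.q m 0 = 0 := S.bm_zero_left m 0
          rw [this]; exact S.q_nonneg _ _
      have e5 := mul_le_mul_of_nonneg_left e3 hC
      linarith
    have h2 := h b F
    have h3 := mul_le_mul_of_nonneg_left (S.q_le_succ (m + 1) F) hC
    rw [sum_const, card_univ, Fintype.card_fin, nsmul_eq_mul] at h1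
    calc S.q m (S.X b * F) + ∑ a, S.q m (S.D a (S.X b * F))
        ≤ C * S.q (m + 1) F + n * ((2 + 2 * C) * S.q (m + 2) F) := add_le_add h2 h1
      _ ≤ C * S.q (m + 2) F + n * ((2 + 2 * C) * S.q (m + 2) F) := by linarith
      _ = (C + n * (2 + 2 * C)) * S.q (m + 1 + 1) F := by ring

/-! ### the operator `L F = ∑ τ_ab D_a D_b F - ∑ X_b D_b F` -/

/-- pinched smooth diffusion matrix -/
structure Diff (S : GAlg n A) (K : BCls S) where
  τ : Fin n → Fin n → A
  mem : ∀ a b, τ a b ∈ K.B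
  κ0 : ℝ
  κ1 : ℝ
  κ0_pos : 0 < κ0
  low : ∀ G : Fin n → A, κ0 * ∑ a, S.I (G a * G a) ≤ ∑ a, ∑ b, S.I (τ a b * (G a * G b))
  upp : ∀ G : Fin n → A, ∑ a, ∑ b, S.I (τ a b * (G a * G b)) ≤ κ1 * ∑ a, S.I (G a * G a)
  small : S.s * κ1 ≤ 1 / 2

variable {S} {K : BCls S} (T : Diff S K)

/-- the generator -/
def Lop (T : Diff S K) : A →ₗ[ℝ] A where
  toFun F := ∑ a, ∑ b, T.τ a b * S.D a (S.D b F) - ∑ b, S.X b * S.D b F
  map_add' F G := by
    simp only [map_add, mul_add, sum_add_distrib]; ring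
  map_smul' t F := by
    simp only [map_smul, mul_smul_comm, ← smul_sum, RingHom.id_apply, smul_sub]

theorem Lop_apply (F : A) : Lop T F = ∑ a, ∑ b, T.τ a b * S.D a (S.D b F) - ∑ b, S.X b * S.D b F := rfl

theorem q_Lop_le (m : ℕ) : ∃ C : ℝ, 0 ≤ C ∧ ∀ F, S.q m (Lop T F) ≤ C * S.q (m + 2) F := by
  choose C hC h using fun a b => S.q_mul_le K m (T.τ a b) (T.mem a b)
  obtain ⟨C', hC', h'⟩ := S.q_X_mul_le m
  refine ⟨2 * (n * ∑ a, (n * ∑ b, C a b)) + 2 * (n * ∑ _b : Fin n, C'), ?_, ?_⟩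
  · have : ∀ a, 0 ≤ ∑ b, C a b := fun a => sum_nonneg (fun b _ => hC a b)
    have h2 : 0 ≤ ∑ a, (n * ∑ b, C a b : ℝ) := sum_nonneg (fun a _ => mul_nonneg (Nat.cast_nonneg _) (this a))
    have h3 : 0 ≤ ∑ _b : Fin n, C' := sum_nonneg (fun _ _ => hC')
    positivity
  intro F
  rw [Lop_apply]
  refine (S.q_sub_le m _ _).trans ?_
  have e1 : S.q m (∑ a, ∑ b, T.τ a b * S.D a (S.D b F)) ≤ (n * ∑ a, (n * ∑ b, C a b)) * S.q (m + 2) F := by
    refine (S.q_sum_le m _ _).trans ?_
    rw [card_univ, Fintype.card_fin, mul_assoc, sum_mul]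
    refine mul_le_mul_of_nonneg_left (sum_le_sum (fun a _ => ?_)) (Nat.cast_nonneg _)
    refine (S.q_sum_le m _ _).trans ?_
    rw [card_univ, Fintype.card_fin, mul_assoc, sum_mul]
    refine mul_le_mul_of_nonneg_left (sum_le_sum (fun b _ => ?_)) (Nat.cast_nonneg _)
    refine (h a b _).trans (mul_le_mul_of_nonneg_left ?_ (hC a b))
    exact (S.q_D_le m a _).trans (S.q_D_le (m + 1) b F)
  have e2 : S.q m (∑ b, S.X b * S.D b F) ≤ (n * ∑ _b : Fin n, C') * S.q (m + 2) F := by
    refine (S.q_sum_le m _ _).trans ?_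
    rw [card_univ, Fintype.card_fin, mul_assoc, sum_mul]
    refine mul_le_mul_of_nonneg_left (sum_le_sum (fun b _ => ?_)) (Nat.cast_nonneg _)
    exact (h' b _).trans (mul_le_mul_of_nonneg_left (S.q_D_le (m + 1) b F) hC')
  rw [add_mul]
  linarith

/-- commutator remainder `R_a F = ∑ (D_a τ_bc) D_b D_c F` -/
def Rop (T : Diff S K) (a : Fin n) (F : A) : A := ∑ b, ∑ c, S.D a (T.τ b c) * S.D b (S.D c F)

theorem D_Lop (a : Fin n) (F : A) : S.D a (Lop T F) = Lop T (S.D a F) + Rop T a F - S.D a F := by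
  rw [Lop_apply, Lop_apply, Rop, map_sub, map_sum, map_sum]
  have h1 : ∀ b, S.D a (∑ c, T.τ b c * S.D b (S.D c F)) =
      ∑ c, (S.D a (T.τ b c) * S.D b (S.D c F) + T.τ b c * S.D b (S.D c (S.D a F))) := by
    intro b
    rw [map_sum]
    refine sum_congr rfl (fun c _ => ?_)
    rw [S.leib, S.comm a b, S.comm a c]
  have h2 : ∀ b, S.D a (S.X b * S.D b F) = (if a = b then S.D b F else 0) + S.X b * S.D b (S.D a F) := by
    intro b
    rw [S.leib, S.DX, S.comm a b]
    split_ifs <;> simp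
  rw [sum_congr rfl (fun b _ => h1 b), sum_congr rfl (fun b _ => h2 b)]
  simp only [sum_add_distrib, sum_ite_eq, mem_univ, if_true]
  ring

theorem q_Rop_le (m : ℕ) : ∃ C : ℝ, 0 ≤ C ∧ ∀ a F, S.q m (Rop T a F) ≤ C * S.q (m + 2) F := by
  choose C hC h using fun a b c => S.q_mul_le K m (S.D a (T.τ b c)) (K.closed _ (T.mem b c) a)
  refine ⟨∑ a, (n * ∑ b, (n * ∑ c, C a b c)), ?_, ?_⟩
  · refine sum_nonneg (fun a _ => mul_nonneg (Nat.cast_nonneg _) (sum_nonneg (fun b _ =>
      mul_nonneg (Nat.cast_nonneg _) (sum_nonneg (fun c _ => hC a b c)))))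
  intro a F
  have hpos : ∀ a, 0 ≤ (n * ∑ b, (n * ∑ c, C a b c) : ℝ) := fun a =>
    mul_nonneg (Nat.cast_nonneg _) (sum_nonneg (fun b _ =>
      mul_nonneg (Nat.cast_nonneg _) (sum_nonneg (fun c _ => hC a b c))))
  have e1 : S.q m (Rop T a F) ≤ (n * ∑ b, (n * ∑ c, C a b c)) * S.q (m + 2) F := by
    rw [Rop]
    refine (S.q_sum_le m _ _).trans ?_
    rw [card_univ, Fintype.card_fin, mul_assoc, sum_mul]
    refine mul_le_mul_of_nonneg_left (sum_le_sum (fun b _ => ?_)) (Nat.cast_nonneg _)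
    refine (S.q_sum_le m _ _).trans ?_
    rw [card_univ, Fintype.card_fin, mul_assoc, sum_mul]
    refine mul_le_mul_of_nonneg_left (sum_le_sum (fun c _ => ?_)) (Nat.cast_nonneg _)
    refine (h a b c _).trans (mul_le_mul_of_nonneg_left ?_ (hC a b c))
    exact (S.q_D_le m b _).trans (S.q_D_le (m + 1) c F)
  refine e1.trans (mul_le_mul_of_nonneg_right ?_ (S.q_nonneg _ _))
  exact single_le_sum (f := fun a => (n * ∑ b, (n * ∑ c, C a b c) : ℝ)) (fun a _ => hpos a) (mem_univ a)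

end GAlg

end Vale.Agent.P227.M.GAL
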