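import Vale.Agent.P227.M.GAL.Abs

namespace Vale.Agent.P227.M.GAL

open Finset

namespace GAlg

variable {n : ℕ} {A : Type} [CommRing A] [Algebra ℝ A] {S : GAlg n A} {K : BCls S} (T : Diff S K)

theorem ibp_tau (a b : Fin n) (F : A) :
    S.I (T.τ a b * S.D a (S.D b F) * F) =
      S.s / 2 * (S.s * S.I (T.τ a b * ((S.X a * F) * (S.X b * F)))
        - (if a = b then S.I (T.τ a b * F * F) else 0)
        - S.I ((S.D b (T.τ a b) * F) * (S.X a * F)))
      - S.I (T.τ a b * (S.D a F * S.D b F)) - S.I ((S.D a (T.τ a b) * F) * S.D b F) := by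
  have h1 := S.ibp a (T.τ a b * (S.D b F * F))
  rw [S.leib, S.leib, mul_add, map_add, map_add] at h1
  have h2 := S.ibp b (S.X a * (T.τ a b * (F * F)))
  rw [S.leib, S.DX, S.leib, S.leib, mul_add, mul_add, map_add, map_add, mul_add, map_add] at h2
  have e1 : S.D a (T.τ a b) * (S.D b F * F) = (S.D a (T.τ a b) * F) * S.D b F := by ring
  have e2 : T.τ a b * (S.D a (S.D b F) * F) = T.τ a b * S.D a (S.D b F) * F := by ring
  have e3 : T.τ a b * (S.D b F * S.D a F) = T.τ a b * (S.D a F * S.D b F) := by ring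
  have e4 : S.X a * (T.τ a b * (S.D b F * F)) = S.X a * (T.τ a b * (F * S.D b F)) := by ring
  have e5 : (if b = a then (1 : A) else 0) * (T.τ a b * (F * F)) = if a = b then T.τ a b * F * F else 0 := by
    by_cases h : a = b
    · subst h; simp; ring
    · rw [if_neg h, if_neg (fun h' => h h'.symm), zero_mul]
  have e6 : S.X a * (S.D b (T.τ a b) * (F * F)) = (S.D b (T.τ a b) * F) * (S.X a * F) := by ring
  have e7 : S.X a * (T.τ a b * (S.D b F * F)) = S.X a * (T.τ a b * (F * S.D b F)) := by ring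
  have e8 : S.X b * (S.X a * (T.τ a b * (F * F))) = T.τ a b * ((S.X a * F) * (S.X b * F)) := by ring
  have e9 : S.I (if a = b then T.τ a b * F * F else 0) = if a = b then S.I (T.τ a b * F * F) else 0 := by
    split_ifs <;> simp
  rw [e1, e2, e3, e4] at h1
  rw [e5, e6, e7, e8, e9] at h2
  linear_combination h1 + (S.s / 2) * h2

theorem ibp_X (b : Fin n) (F : A) :
    S.I (S.X b * S.D b F * F) = 1 / 2 * (S.s * S.q 0 (S.X b * F) - S.q 0 F) := by
  have h2 := S.ibp b (S.X b * (F * F))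
  rw [S.leib, S.DX, S.leib, if_pos rfl, one_mul, mul_add, map_add, map_add] at h2
  have e1 : S.X b * (S.D b F * F) = S.X b * S.D b F * F := by ring
  have e2 : S.X b * (F * S.D b F) = S.X b * S.D b F * F := by ring
  have e3 : S.X b * (S.X b * (F * F)) = (S.X b * F) * (S.X b * F) := by ring
  rw [e1, e2, e3] at h2
  rw [q_zero, q_zero]
  linarith

theorem coer0 : ∃ c C : ℝ, 0 < c ∧ 0 ≤ C ∧ ∀ F, c * S.q 1 F - C * S.q 0 F ≤ -S.bm 0 (Lop T F) F := by
  choose C1 hC1 h1 using fun a b => K.bound (S.D a (T.τ a b)) (K.closed _ (T.mem a b) a)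
  choose C2 hC2 h2 using fun a b => K.bound (S.D b (T.τ a b)) (K.closed _ (T.mem a b) b)
  choose C3 hC3 h3 using fun a b => K.bound (T.τ a b) (T.mem a b)
  have hs := S.s_pos
  have hκ := T.κ0_pos
  set t : ℝ := min T.κ0 1 / (n + 1) with ht
  have hn : (0 : ℝ) < n + 1 := by positivity
  have htpos : 0 < t := by positivity
  have hnt0 : n * t ≤ min T.κ0 1 := by
    rw [ht]
    rw [mul_div_assoc', div_le_iff₀ hn]
    have : 0 < min T.κ0 1 := by positivity
    nlinarith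
  have hnt1 : n * t ≤ T.κ0 := hnt0.trans (min_le_left _ _)
  have hnt2 : n * t ≤ 1 := hnt0.trans (min_le_right _ _)
  set C' : ℝ := (1 / 2 * t⁻¹ * ∑ a, ∑ b, C1 a b + S.s / 4 * (∑ a, ∑ b, C3 a b + n * (n * 1)) +
          S.s / 4 * t⁻¹ * ∑ a, ∑ b, C2 a b) with hC'
  have hC'0 : 0 ≤ C' := by
    have a1 : 0 ≤ ∑ a, ∑ b, C1 a b := sum_nonneg (fun a _ => sum_nonneg (fun b _ => hC1 a b))
    have a2 : 0 ≤ ∑ a, ∑ b, C2 a b := sum_nonneg (fun a _ => sum_nonneg (fun b _ => hC2 a b))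
    have a3 : 0 ≤ ∑ a, ∑ b, C3 a b := sum_nonneg (fun a _ => sum_nonneg (fun b _ => hC3 a b))
    positivity
  refine ⟨T.κ0 / 2, C' + n / 2 + T.κ0 / 2, by positivity, by positivity, ?_⟩
  intro F
  have hF0 := S.q_nonneg 0 F
  -- per entry bound
  have hent : ∀ a b, -S.I (T.τ a b * S.D a (S.D b F) * F) ≥
      S.I (T.τ a b * (S.D a F * S.D b F)) - S.s ^ 2 / 2 * S.I (T.τ a b * ((S.X a * F) * (S.X b * F)))
      - (1 / 2 * t * S.q 0 (S.D b F) + S.s / 4 * t * S.q 0 (S.X a * F))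
      - (1 / 2 * t⁻¹ * C1 a b + S.s / 4 * (C3 a b + 1) + S.s / 4 * t⁻¹ * C2 a b) * S.q 0 F := by
    intro a b
    rw [ibp_tau]
    have y1 := S.young_neg 0 (S.D a (T.τ a b) * F) (S.D b F) (t := t⁻¹) (by positivity)
    have y2 := S.young_neg 0 (S.D b (T.τ a b) * F) (S.X a * F) (t := t⁻¹) (by positivity)
    rw [inv_inv] at y1 y2
    have i1 : S.bm 0 (S.D a (T.τ a b) * F) (S.D b F) = S.I ((S.D a (T.τ a b) * F) * S.D b F) := rfl
    have i2 : S.bm 0 (S.D b (T.τ a b) * F) (S.X a * F) = S.I ((S.D b (T.τ a b) * F) * (S.X a * F)) := rfl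
    rw [i1] at y1
    rw [i2] at y2
    have z1 := mul_le_mul_of_nonneg_left (h1 a b F) (show (0 : ℝ) ≤ t⁻¹ by positivity)
    have z2 := mul_le_mul_of_nonneg_left (h2 a b F) (show (0 : ℝ) ≤ t⁻¹ by positivity)
    have z3 : (if a = b then S.I (T.τ a b * F * F) else 0) ≥ -(1 / 2 * (C3 a b + 1) * S.q 0 F) := by
      have hp : 0 ≤ 1 / 2 * (C3 a b + 1) * S.q 0 F := by have := hC3 a b; positivity
      split_ifs
      · have y3 := S.young_neg 0 (T.τ a b * F) F (t := 1) one_pos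
        have i3 : S.bm 0 (T.τ a b * F) F = S.I (T.τ a b * F * F) := rfl
        rw [i3] at y3
        have z4 := h3 a b F
        simp only [inv_one, one_mul] at y3
        linarith
      · linarith
    have z5 := mul_le_mul_of_nonneg_left z3 (show (0 : ℝ) ≤ S.s / 2 by positivity)
    have z6 := mul_le_mul_of_nonneg_left y2 (show (0 : ℝ) ≤ S.s / 4 by positivity)
    have z7 := mul_le_mul_of_nonneg_left z2 (show (0 : ℝ) ≤ S.s / 4 by positivity)
    nlinarith [z1, z5, z6, z7, y1]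
  have hX : ∀ b, S.I (S.X b * S.D b F * F) = 1 / 2 * (S.s * S.q 0 (S.X b * F) - S.q 0 F) := fun b => ibp_X b F
  have hL : -S.bm 0 (Lop T F) F = ∑ a, ∑ b, (-S.I (T.τ a b * S.D a (S.D b F) * F)) +
      ∑ b, 1 / 2 * (S.s * S.q 0 (S.X b * F) - S.q 0 F) := by
    have : S.bm 0 (Lop T F) F = S.I (Lop T F * F) := rfl
    rw [this, Lop_apply, sub_mul, map_sub, sum_mul, sum_mul, map_sum, map_sum]
    simp only [sum_mul, map_sum, hX, sum_neg_distrib]
    ring
  rw [hL]
  have hsum := sum_le_sum (fun a (_ : a ∈ (univ : Finset (Fin n))) =>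
    sum_le_sum (fun b (_ : b ∈ (univ : Finset (Fin n))) => hent a b))
  simp only [sum_sub_distrib, sum_add_distrib, ← mul_sum, ← sum_mul, sum_const, card_univ, Fintype.card_fin,
    nsmul_eq_mul] at hsum
  have hlow := T.low (fun a => S.D a F)
  have hupp := T.upp (fun a => S.X a * F)
  set W : ℝ := ∑ a, S.I ((S.X a * F) * (S.X a * F)) with hW
  have hW0 : 0 ≤ W := sum_nonneg (fun a _ => S.I_sq _)
  set Gd : ℝ := ∑ a, S.I (S.D a F * S.D a F) with hGd
  have hGd0 : 0 ≤ Gd := sum_nonneg (fun a _ => S.I_sq _)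
  have eW : ∑ a, S.q 0 (S.X a * F) = W := rfl
  have eG : ∑ a, S.q 0 (S.D a F) = Gd := rfl
  have eq1 : S.q 1 F = S.q 0 F + Gd := rfl
  rw [eq1, ← mul_sum, sum_sub_distrib, ← mul_sum, eW, sum_const, card_univ, Fintype.card_fin, nsmul_eq_mul]
  rw [eW, eG, ← hC'] at hsum
  have g1 : S.s ^ 2 / 2 * ∑ i, ∑ i_1, S.I (T.τ i i_1 * (S.X i * F * (S.X i_1 * F))) ≤ S.s / 4 * W := by
    have z1 := mul_le_mul_of_nonneg_left hupp (show (0 : ℝ) ≤ S.s ^ 2 / 2 by positivity)
    have z2 := mul_le_mul_of_nonneg_right T.small (show (0 : ℝ) ≤ S.s / 2 * W by positivity)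
    refine z1.trans ?_
    calc S.s ^ 2 / 2 * (T.κ1 * W) = S.s * T.κ1 * (S.s / 2 * W) := by ring
      _ ≤ 1 / 2 * (S.s / 2 * W) := z2
      _ = S.s / 4 * W := by ring
  have g2 : S.s / 4 * t * (n * W) ≤ S.s / 4 * W := by
    have := mul_le_mul_of_nonneg_right hnt2 (show (0 : ℝ) ≤ S.s / 4 * W by positivity)
    calc S.s / 4 * t * (n * W) = n * t * (S.s / 4 * W) := by ring
      _ ≤ 1 * (S.s / 4 * W) := this
      _ = S.s / 4 * W := by ring
  have g3 : 1 / 2 * t * (n * Gd) ≤ T.κ0 / 2 * Gd := by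
    have := mul_le_mul_of_nonneg_right hnt1 (show (0 : ℝ) ≤ Gd / 2 by positivity)
    calc 1 / 2 * t * (n * Gd) = n * t * (Gd / 2) := by ring
      _ ≤ T.κ0 * (Gd / 2) := this
      _ = T.κ0 / 2 * Gd := by ring
  linarith

/-- coercivity of all orders -/
theorem coer (m : ℕ) : ∃ c C : ℝ, 0 < c ∧ 0 ≤ C ∧
    ∀ F, c * S.q (m + 1) F - C * S.q m F ≤ -S.bm m (Lop T F) F := by
  induction m with
  | zero => exact coer0 T
  | succ m ih =>
    obtain ⟨c, C, hc, hC, h⟩ := ih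
    obtain ⟨C1, hC1, h1⟩ := q_Rop_le T m
    set t : ℝ := c / (n * C1 + 1) with ht
    have hpos : (0 : ℝ) < n * C1 + 1 := by positivity
    have htp : 0 < t := by positivity
    refine ⟨c / 2, C + 1 / 2 * t⁻¹, by positivity, by positivity, ?_⟩
    intro F
    have e1 : S.bm (m + 1) (Lop T F) F = S.bm m (Lop T F) F + ∑ a, S.bm m (S.D a (Lop T F)) (S.D a F) := rfl
    have e2 : ∀ a, S.bm m (S.D a (Lop T F)) (S.D a F) =
        S.bm m (Lop T (S.D a F)) (S.D a F) + S.bm m (Rop T a F) (S.D a F) - S.q m (S.D a F) := by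
      intro a
      rw [D_Lop, S.bm_sub_left, S.bm_add_left]; rfl
    have e3 : ∀ a, -S.bm m (S.D a (Lop T F)) (S.D a F) ≥
        c * S.q (m + 1) (S.D a F) - C * S.q m (S.D a F) - 1 / 2 * t * C1 * S.q (m + 2) F
          - 1 / 2 * t⁻¹ * S.q m (S.D a F) := by
      intro a
      have y := S.young m (Rop T a F) (S.D a F) htp
      have z := mul_le_mul_of_nonneg_left (h1 a F) htp.le
      have w := h (S.D a F)
      have v := S.q_nonneg m (S.D a F)
      rw [e2]
      linarith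
    have hsum := sum_le_sum (fun a (_ : a ∈ (univ : Finset (Fin n))) => e3 a)
    simp only [sum_sub_distrib, ← mul_sum, sum_neg_distrib, sum_const, card_univ, Fintype.card_fin,
      nsmul_eq_mul] at hsum
    have k1 : S.q (m + 2) F = S.q (m + 1) F + ∑ a, S.q (m + 1) (S.D a F) := rfl
    have k2 : S.q (m + 1) F = S.q m F + ∑ a, S.q m (S.D a F) := rfl
    have k3 := h F
    have k4 : S.q (m + 1 + 1) F = S.q (m + 2) F := rfl
    have k5 : n * (1 / 2 * t * C1 * S.q (m + 2) F) ≤ c / 2 * S.q (m + 2) F := by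
      have z : n * C1 * t ≤ c := by
        rw [ht, mul_div_assoc', div_le_iff₀ hpos]
        nlinarith
      have := mul_le_mul_of_nonneg_right z (show (0 : ℝ) ≤ 1 / 2 * S.q (m + 2) F by
        have := S.q_nonneg (m + 2) F; positivity)
      calc n * (1 / 2 * t * C1 * S.q (m + 2) F) = n * C1 * t * (1 / 2 * S.q (m + 2) F) := by ring
        _ ≤ c * (1 / 2 * S.q (m + 2) F) := this
        _ = c / 2 * S.q (m + 2) F := by ring
    have k6 : 0 ≤ ∑ a, S.q m (S.D a F) := sum_nonneg (fun a _ => S.q_nonneg m _)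
    have k7 := S.q_nonneg m F
    have k8 : 1 / 2 * t⁻¹ * ∑ a, S.q m (S.D a F) ≤ 1 / 2 * t⁻¹ * S.q (m + 1) F := by
      refine mul_le_mul_of_nonneg_left ?_ (by positivity)
      linarith
    rw [e1, k4]
    have k9 : C * S.q (m + 1) F = C * S.q m F + C * ∑ a, S.q m (S.D a F) := by rw [k2]; ring
    have k10 : c * S.q (m + 2) F = c * S.q (m + 1) F + c * ∑ a, S.q (m + 1) (S.D a F) := by rw [k1]; ring
    linarith

end GAlg

end Vale.Agent.P227.M.GAL
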