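import Vale.Agent.P227.M.GAL.Gal

namespace Vale.Agent.P227.M.GAL

open Finset Filter Topology

theorem weak_of_dense {H : Type*} [NormedAddCommGroup H] [InnerProductSpace ℝ H] (D : Submodule ℝ H)
    (hD : Dense (D : Set H)) (u : ℕ → H) (u0 : H) (B : ℝ) (hB : ∀ d, ‖u d‖ ≤ B)
    (h : ∀ w ∈ D, Tendsto (fun d => inner ℝ (u d) w) atTop (𝓝 (inner ℝ u0 w))) (g : H) :
    Tendsto (fun d => inner ℝ (u d) g) atTop (𝓝 (inner ℝ u0 g)) := by
  rw [Metric.tendsto_atTop]
  intro ε hε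
  have hB0 : 0 ≤ B := (norm_nonneg _).trans (hB 0)
  set M : ℝ := B + ‖u0‖ + 1 with hM
  have hM0 : 0 < M := by positivity
  obtain ⟨w, hw, hwD⟩ := Metric.dense_iff.mp hD g (ε / (2 * M)) (by positivity)
  have hgw : ‖g - w‖ < ε / (2 * M) := by
    rw [Metric.mem_ball, dist_comm, dist_eq_norm] at hw
    exact hw
  obtain ⟨N, hN⟩ := (Metric.tendsto_atTop.mp (h w hwD)) (ε / 2) (by positivity)
  refine ⟨N, fun d hd => ?_⟩
  have h1 := hN d hd
  rw [Real.dist_eq] at h1 ⊢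
  have e : inner ℝ (u d) g - inner ℝ u0 g =
      inner ℝ (u d - u0) (g - w) + (inner ℝ (u d) w - inner ℝ u0 w) := by
    rw [inner_sub_left, inner_sub_right, inner_sub_right]; ring
  rw [e]
  have h2 : |inner ℝ (u d - u0) (g - w)| ≤ M * ‖g - w‖ := by
    refine (abs_real_inner_le_norm _ _).trans ?_
    refine mul_le_mul_of_nonneg_right ?_ (norm_nonneg _)
    have := norm_sub_le (u d) u0
    have := hB d
    rw [hM]; linarith
  have h3 : M * ‖g - w‖ < ε / 2 := by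
    have := mul_lt_mul_of_pos_left hgw hM0
    calc M * ‖g - w‖ < M * (ε / (2 * M)) := this
      _ = ε / 2 := by field_simp
  calc |inner ℝ (u d - u0) (g - w) + (inner ℝ (u d) w - inner ℝ u0 w)|
      ≤ |inner ℝ (u d - u0) (g - w)| + |inner ℝ (u d) w - inner ℝ u0 w| := abs_add_le _ _
    _ < ε := by linarith

namespace GAlg

variable {n : ℕ} {A : Type} [CommRing A] [Algebra ℝ A] {S : GAlg n A} {K : BCls S} (T : Diff S K)

/-- formal adjoint of `Lop` -/
def Ladj (T : Diff S K) (G : A) : A :=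
  ∑ a, ∑ b, S.Ds b (S.Ds a (T.τ a b * G)) - ∑ b, S.Ds b (S.X b * G)

theorem Lop_adj (F G : A) : S.I (Lop T F * G) = S.I (F * Ladj T G) := by
  rw [Lop_apply, Ladj, sub_mul, mul_sub, map_sub, map_sub, sum_mul, mul_sum, map_sum, map_sum, sum_mul, mul_sum,
    map_sum, map_sum]
  congr 1
  · refine sum_congr rfl (fun a _ => ?_)
    rw [sum_mul, mul_sum, map_sum, map_sum]
    refine sum_congr rfl (fun b _ => ?_)
    rw [← adj, ← adj]
    congr 1; ring
  · refine sum_congr rfl (fun b _ => ?_)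
    rw [← adj]
    congr 1; ring

theorem Tl_adj (l : ℝ) (F G : A) : S.I (Tl T l F * G) = S.I (F * (l • G - Ladj T G)) := by
  rw [Tl_apply, sub_mul, mul_sub, map_sub, map_sub, Lop_adj, smul_mul_assoc, mul_smul_comm]

variable {H : Type*} [NormedAddCommGroup H] [InnerProductSpace ℝ H] (j : A →ₗ[ℝ] H)
  (hj : ∀ F G, inner ℝ (j F) (j G) = S.I (F * G)) (P : Fil S)

/-- all polynomials -/
def Fil.U (P : Fil S) : Submodule ℝ A := ⨆ d, P.P d

theorem Fil.mem_U (P : Fil S) {F : A} : F ∈ P.U ↔ ∃ d, F ∈ P.P d := by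
  unfold Fil.U
  exact Submodule.mem_iSup_of_directed _ P.mono.directed_le

include hj in
theorem norm_j_sq (F : A) : ‖j F‖ ^ 2 = S.q 0 F := by
  rw [← real_inner_self_eq_norm_sq, hj]; rfl

include hj in
/-- weak convergence of the Galerkin solutions -/
theorem weak1 (hD : Dense ((P.U.map j : Submodule ℝ H) : Set H)) (l : ℝ) (h : A) (F : ℕ → A) (B : ℝ)
    (hsol : ∀ d, ∀ G ∈ P.P d, S.I (Tl T l (F d) * G) = S.I (h * G))
    (hB : ∀ d, S.q 2 (F d) ≤ B) (g : H) :
    Tendsto (fun d => inner ℝ (j (Tl T l (F d))) g) atTop (𝓝 (inner ℝ (j h) g)) := by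
  obtain ⟨C, hC, hq⟩ := q_Tl_le T l 0
  refine weak_of_dense _ hD _ _ (Real.sqrt (C * B)) ?_ ?_ g
  · intro d
    refine Real.le_sqrt_of_sq_le ?_
    rw [norm_j_sq j hj]
    exact (hq _).trans (mul_le_mul_of_nonneg_left (hB d) hC)
  · intro w hw
    obtain ⟨G, hG, rfl⟩ := Submodule.mem_map.mp hw
    obtain ⟨e, he⟩ := P.mem_U.mp hG
    refine tendsto_const_nhds.congr' ?_
    filter_upwards [eventually_ge_atTop e] with d hd
    rw [hj, hj]
    exact (hsol d G (P.mono hd he)).symm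

include hj in
theorem weak2 (hD : Dense ((P.U.map j : Submodule ℝ H) : Set H)) (l : ℝ) (h : A) (F : ℕ → A) (B : ℝ)
    (hsol : ∀ d, ∀ G ∈ P.P d, S.I (Tl T l (F d) * G) = S.I (h * G))
    (hB : ∀ d, S.q 4 (F d) ≤ B) (g : H) :
    Tendsto (fun d => inner ℝ (j (Tl T l (Tl T l (F d)))) g) atTop (𝓝 (inner ℝ (j (Tl T l h)) g)) := by
  obtain ⟨C, hC, hq⟩ := q_Tl_le T l 0
  obtain ⟨C', hC', hq'⟩ := q_Tl_le T l 2
  refine weak_of_dense _ hD _ _ (Real.sqrt (C * (C' * B))) ?_ ?_ g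
  · intro d
    refine Real.le_sqrt_of_sq_le ?_
    rw [norm_j_sq j hj]
    refine (hq _).trans (mul_le_mul_of_nonneg_left ?_ hC)
    exact (hq' _).trans (mul_le_mul_of_nonneg_left (hB d) hC')
  · intro w hw
    obtain ⟨G, hG, rfl⟩ := Submodule.mem_map.mp hw
    have h1 := weak1 T j hj P hD l h F B hsol (fun d => (S.q_mono (by omega) _).trans (hB d))
      (j (l • G - Ladj T G))
    simp only [hj] at h1 ⊢
    simp only [Tl_adj T l (Tl T l _) G]
    rw [Tl_adj T l h G]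
    exact h1

include hj in
/-- the range of `(λ - L)²` on polynomials is dense -/
theorem orth_sq (hD : Dense ((P.U.map j : Submodule ℝ H) : Set H)) : ∃ l0 : ℝ, ∀ l ≥ l0, ∀ g : H,
    (∀ F ∈ P.U, inner ℝ (j (Tl T l (Tl T l F))) g = 0) → g = 0 := by
  obtain ⟨l0, hl0⟩ := galerkin T P
  refine ⟨l0, fun l hl g hg => ?_⟩
  obtain ⟨Kc, hK, hsol⟩ := hl0 l hl
  have key : ∀ h ∈ P.U, inner ℝ (j h) g = 0 := by
    intro h hh
    choose F hFP hFs hF4 hF2 using fun d => hsol d h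
    have step : ∀ d, inner ℝ (j (Tl T l (F d))) g = 0 := by
      intro d
      choose G hGP hGs hG4 hG2 using fun e => hsol e (F d)
      have h1 := weak2 T j hj P hD l (F d) G (Kc * S.q 3 (F d)) hGs hG4 g
      have h2 : ∀ e, inner ℝ (j (Tl T l (Tl T l (G e)))) g = 0 := fun e =>
        hg _ (P.mem_U.mpr ⟨e, hGP e⟩)
      simp only [h2] at h1
      exact (tendsto_nhds_unique h1 tendsto_const_nhds)
    have h1 := weak1 T j hj P hD l h F (Kc * S.q 1 h) hFs hF2 g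
    simp only [step] at h1
    exact (tendsto_nhds_unique h1 tendsto_const_nhds)
  have h2 : ∀ w ∈ (P.U.map j : Submodule ℝ H), inner ℝ w g = 0 := by
    intro w hw
    obtain ⟨G, hG, rfl⟩ := Submodule.mem_map.mp hw
    exact key G hG
  exact hD.eq_zero_of_inner_left ℝ (fun v hv => (real_inner_comm _ _).trans (h2 v hv))

include hj in
/-- the range of `λ - L` on polynomials is dense -/
theorem orth_one (hD : Dense ((P.U.map j : Submodule ℝ H) : Set H)) : ∃ l0 : ℝ, ∀ l ≥ l0, ∀ g : H,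
    (∀ F ∈ P.U, inner ℝ (j (Tl T l F)) g = 0) → g = 0 := by
  obtain ⟨l0, hl0⟩ := galerkin T P
  refine ⟨l0, fun l hl g hg => ?_⟩
  obtain ⟨Kc, hK, hsol⟩ := hl0 l hl
  have key : ∀ h ∈ P.U, inner ℝ (j h) g = 0 := by
    intro h hh
    choose F hFP hFs hF4 hF2 using fun d => hsol d h
    have step : ∀ d, inner ℝ (j (Tl T l (F d))) g = 0 := fun d => hg _ (P.mem_U.mpr ⟨d, hFP d⟩)
    have h1 := weak1 T j hj P hD l h F (Kc * S.q 1 h) hFs hF2 g
    simp only [step] at h1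
    exact (tendsto_nhds_unique h1 tendsto_const_nhds)
  have h2 : ∀ w ∈ (P.U.map j : Submodule ℝ H), inner ℝ w g = 0 := by
    intro w hw
    obtain ⟨G, hG, rfl⟩ := Submodule.mem_map.mp hw
    exact key G hG
  exact hD.eq_zero_of_inner_left ℝ (fun v hv => (real_inner_comm _ _).trans (h2 v hv))

end GAlg

end Vale.Agent.P227.M.GAL
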