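import Vale.Agent.P227.M.GAL.Coer

namespace Vale.Agent.P227.M.GAL

open Finset Filter Topology

namespace GAlg

variable {n : ℕ} {A : Type} [CommRing A] [Algebra ℝ A] {S : GAlg n A} {K : BCls S} (T : Diff S K)

/-- formal adjoint of `D a` -/
def Ds (S : GAlg n A) (a : Fin n) : A →ₗ[ℝ] A := S.s • (LinearMap.mulLeft ℝ (S.X a)) - S.D a

theorem Ds_apply (a : Fin n) (g : A) : S.Ds a g = S.s • (S.X a * g) - S.D a g := rfl

theorem adj (a : Fin n) (f g : A) : S.I (S.D a f * g) = S.I (f * S.Ds a g) := by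
  have h := S.ibp a (f * g)
  rw [S.leib, map_add] at h
  rw [Ds_apply, mul_sub, mul_smul_comm, map_sub, map_smul, smul_eq_mul]
  have e : f * (S.X a * g) = S.X a * (f * g) := by ring
  rw [e]; linarith

/-- the polynomial filtration -/
structure Fil (S : GAlg n A) where
  P : ℕ → Submodule ℝ A
  fin : ∀ d, FiniteDimensional ℝ (P d)
  mono : Monotone P
  D0 : ∀ a, ∀ f ∈ P 0, S.D a f = 0
  DP : ∀ a d, ∀ f ∈ P (d + 1), S.D a f ∈ P d
  XP : ∀ a d, ∀ f ∈ P d, S.X a * f ∈ P (d + 1)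
  nd : ∀ d, ∀ f ∈ P d, S.I (f * f) = 0 → f = 0

/-- `⟨F,G⟩_m = I(F * Q_m G)` -/
def Q (S : GAlg n A) : ℕ → A →ₗ[ℝ] A
  | 0 => LinearMap.id
  | m + 1 => Q S m + ∑ a, (S.Ds a) ∘ₗ (Q S m) ∘ₗ (S.D a)

theorem Q_succ_apply (m : ℕ) (G : A) : S.Q (m + 1) G = S.Q m G + ∑ a, S.Ds a (S.Q m (S.D a G)) := by
  simp [Q, LinearMap.add_apply, LinearMap.sum_apply]

theorem bm_eq (m : ℕ) : ∀ F G : A, S.bm m F G = S.I (F * S.Q m G) := by
  induction m with
  | zero => intro F G; rfl
  | succ m ih =>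
    intro F G
    have e : S.bm (m + 1) F G = S.bm m F G + ∑ a, S.bm m (S.D a F) (S.D a G) := rfl
    rw [e, ih, Q_succ_apply, mul_add, map_add, mul_sum, map_sum]
    congr 1
    refine sum_congr rfl (fun a _ => ?_)
    rw [ih, adj]

theorem Q_mem (P : Fil S) (m : ℕ) : ∀ d, ∀ G ∈ P.P d, S.Q m G ∈ P.P d := by
  induction m with
  | zero => intro d G hG; exact hG
  | succ m ih =>
    intro d G hG
    rw [Q_succ_apply]
    refine Submodule.add_mem _ (ih d G hG) (Submodule.sum_mem _ (fun a _ => ?_))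
    cases d with
    | zero => rw [P.D0 a G hG, map_zero, map_zero]; exact Submodule.zero_mem _
    | succ d =>
      have h1 := P.DP a d G hG
      have h2 := ih d _ h1
      rw [Ds_apply]
      exact Submodule.sub_mem _ (Submodule.smul_mem _ _ (P.XP a d _ h2))
        (P.mono (Nat.le_succ d) (by
          cases d with
          | zero => rw [P.D0 a _ h2]; exact Submodule.zero_mem _
          | succ d => exact P.mono (Nat.le_succ d) (P.DP a d _ h2)))

/-- `T_λ F = λ F - L F` -/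
def Tl (T : Diff S K) (l : ℝ) : A →ₗ[ℝ] A := l • LinearMap.id - Lop T

theorem Tl_apply (l : ℝ) (F : A) : Tl T l F = l • F - Lop T F := rfl

theorem bm_Tl (l : ℝ) (m : ℕ) (F : A) : S.bm m (Tl T l F) F = l * S.q m F - S.bm m (Lop T F) F := by
  rw [Tl_apply, S.bm_sub_left, S.bm_smul_left]; rfl

theorem q_Tl_le (l : ℝ) (m : ℕ) : ∃ C : ℝ, 0 ≤ C ∧ ∀ F, S.q m (Tl T l F) ≤ C * S.q (m + 2) F := by
  obtain ⟨C, hC, h⟩ := q_Lop_le T m
  refine ⟨2 * l ^ 2 + 2 * C, by positivity, fun F => ?_⟩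
  rw [Tl_apply]
  have h1 := S.q_sub_le m (l • F) (Lop T F)
  rw [S.q_smul] at h1
  have h2 := h F
  have h3 := S.q_mono (show m ≤ m + 2 by omega) F
  have h4 := mul_le_mul_of_nonneg_left h3 (show (0 : ℝ) ≤ 2 * l ^ 2 by positivity)
  linarith

/-- Galerkin solution with a priori bound -/
theorem galerkin (P : Fil S) : ∃ l0 : ℝ, ∀ l ≥ l0, ∃ Kc : ℝ, 0 ≤ Kc ∧ ∀ (d : ℕ) (h : A), ∃ F ∈ P.P d,
    (∀ G ∈ P.P d, S.I (Tl T l F * G) = S.I (h * G)) ∧ S.q 4 F ≤ Kc * S.q 3 h ∧ S.q 2 F ≤ Kc * S.q 1 h := by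
  obtain ⟨c0, C0, hc0, hC0, h0⟩ := coer T 0
  obtain ⟨c1, C1, hc1, hC1, h1⟩ := coer T 1
  obtain ⟨c3, C3, hc3, hC3, h3⟩ := coer T 3
  refine ⟨C0 + C1 + C3 + 1, fun l hl => ⟨1 / c3 + 1 / c1, by positivity, fun d h => ?_⟩⟩
  have := P.fin d
  let Φ : P.P d →ₗ[ℝ] Module.Dual ℝ (P.P d) :=
    { toFun := fun F =>
        { toFun := fun G => S.I (Tl T l F * G)
          map_add' := fun G G' => by simp [mul_add]
          map_smul' := fun t G => by simp }
      map_add' := fun F F' => by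
        ext G; simp [add_mul]
      map_smul' := fun t F => by
        ext G; simp }
  have hinj : Function.Injective Φ := by
    rw [← LinearMap.ker_eq_bot, LinearMap.ker_eq_bot']
    intro F hF
    have e1 : S.I (Tl T l F * F) = 0 := by
      have := LinearMap.congr_fun hF F
      simpa [Φ] using this
    have e2 : S.bm 0 (Tl T l F) F = S.I (Tl T l F * F) := rfl
    have e3 := bm_Tl T l 0 (F : A)
    have e4 := h0 (F : A)
    have e5 := S.q_le_succ 0 (F : A)
    have e6 := S.q_nonneg 0 (F : A)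
    have e7 := S.q_nonneg 1 (F : A)
    have e8 : S.q 0 (F : A) = 0 := by
      rw [e2, e1] at e3
      have : 0 ≥ (l - C0) * S.q 0 (F : A) + c0 * S.q (0 + 1) (F : A) := by linarith
      have z : (l - C0) * S.q 0 (F : A) ≥ 1 * S.q 0 (F : A) :=
        mul_le_mul_of_nonneg_right (by linarith) e6
      have z2 : 0 ≤ c0 * S.q (0 + 1) (F : A) := mul_nonneg hc0.le e7
      linarith
    exact Subtype.ext (P.nd d F F.2 e8)
  have hsurj : Function.Surjective Φ := by
    rw [← LinearMap.injective_iff_surjective_of_finrank_eq_finrank]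
    · exact hinj
    · exact (Subspace.dual_finrank_eq).symm
  let φ : Module.Dual ℝ (P.P d) :=
    { toFun := fun G => S.I (h * G)
      map_add' := fun G G' => by simp [mul_add]
      map_smul' := fun t G => by simp }
  obtain ⟨F, hF⟩ := hsurj φ
  have hsol : ∀ G ∈ P.P d, S.I (Tl T l F * G) = S.I (h * G) := by
    intro G hG
    have := LinearMap.congr_fun hF ⟨G, hG⟩
    simpa [Φ, φ] using this
  have apr : ∀ (m : ℕ) (c C : ℝ), 0 < c → 0 ≤ C → C + 1 ≤ l →
      (∀ F, c * S.q (m + 1) F - C * S.q m F ≤ -S.bm m (Lop T F) F) →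
      c * S.q (m + 1) (F : A) ≤ S.q m h := by
    intro m c C hc hC hl' hco
    have e1 : S.bm m (Tl T l F) F = S.bm m h F := by
      rw [bm_eq, bm_eq]
      exact hsol _ (Q_mem P m d _ F.2)
    have e2 := bm_Tl T l m (F : A)
    have e3 := hco F
    have e4 := S.young m h F one_pos
    have e5 := S.q_nonneg m (F : A)
    have e6 := S.q_nonneg m h
    rw [e1] at e2
    have z : (l - C) * S.q m (F : A) ≥ 1 * S.q m (F : A) :=
      mul_le_mul_of_nonneg_right (by linarith) e5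
    simp only [inv_one, one_mul] at e4
    nlinarith
  refine ⟨F, F.2, hsol, ?_, ?_⟩
  · have := apr 3 c3 C3 hc3 hC3 (by linarith) h3
    have z := S.q_nonneg 3 h
    have : S.q 4 (F : A) ≤ 1 / c3 * S.q 3 h := by
      rw [one_div, ← div_eq_inv_mul, le_div_iff₀ hc3]; linarith
    have : 0 ≤ 1 / c1 * S.q 3 h := by positivity
    linarith
  · have := apr 1 c1 C1 hc1 hC1 (by linarith) h1
    have z := S.q_nonneg 1 h
    have : S.q 2 (F : A) ≤ 1 / c1 * S.q 1 h := by
      rw [one_div, ← div_eq_inv_mul, le_div_iff₀ hc1]; linarith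
    have : 0 ≤ 1 / c3 * S.q 1 h := by positivity
    linarith

end GAlg

end Vale.Agent.P227.M.GAL
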