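import Vale.Agent.P227.M.GAL.Dens
import Vale.Agent.P227.M.ID.Inst3

/-! # P227/M/GAL: the Gaussian algebra of temperate functions, polynomials, multipliers -/

namespace Vale.Agent.P227.M.GAL

open MeasureTheory Function Finset
open Vale.Agent.P227.M.IDI

variable {n : ℕ}

/-- `ψ = (s/2) |x|²` -/
noncomputable def gpsi (n : ℕ) (s : ℝ) : TA n := (s / 2) • ∑ a, X a * X a

theorem pd_gpsi (s : ℝ) (b : Fin n) : pd b (gpsi n s) = s • X b := by
  rw [gpsi, (pd b).map_smul, map_sum]
  have : ∀ a, pd b (X a * X a) = if a = b then (2 : ℝ) • X b else 0 := by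
    intro a
    rw [(pd b).leibniz, pd_X]
    by_cases h : a = b
    · subst h; simp [two_smul]
    · simp [h]
  rw [sum_congr rfl (fun a _ => this a), sum_ite_eq' univ b]
  simp only [mem_univ, if_true, smul_smul]
  congr 1; ring

theorem hess_gpsi (s : ℝ) (a b : Fin n) : hess (gpsi n s) a b = if a = b then algebraMap ℝ (TA n) s else 0 := by
  unfold hess
  rw [pd_gpsi, (pd a).map_smul, pd_X]
  by_cases h : a = b
  · subst h; simp [Algebra.algebraMap_eq_smul_one]
  · have h' : ¬ b = a := fun h' => h h'.symm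
    simp [h, h']

/-- the Gaussian datum -/
noncomputable def gdat (n : ℕ) (s : ℝ) (hs : 0 < s) : Dat n where
  ψ := gpsi n s
  c := s
  C := s
  hc := hs
  lo := by
    intro x v
    have : ∀ i j, v i * (hess (gpsi n s) i j).1 x * v j = if i = j then s * v i ^ 2 else 0 := by
      intro i j
      rw [hess_gpsi]
      by_cases h : i = j
      · subst h
        simp only [if_true]
        show v i * s * v i = _
        ring
      · simp only [h, if_false]
        show v i * 0 * v j = 0
        ring
    simp only [this, sum_ite_eq, mem_univ, if_true, mul_sum]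
    exact le_rfl
  hi := by
    intro x v
    have : ∀ i j, v i * (hess (gpsi n s) i j).1 x * v j = if i = j then s * v i ^ 2 else 0 := by
      intro i j
      rw [hess_gpsi]
      by_cases h : i = j
      · subst h
        simp only [if_true]
        show v i * s * v i = _
        ring
      · simp only [h, if_false]
        show v i * 0 * v j = 0
        ring
    simp only [this, sum_ite_eq, mem_univ, if_true, mul_sum]
    exact le_rfl

theorem pd_gV (s : ℝ) (hs : 0 < s) (b : Fin n) : pd b (gdat n s hs).V = s • X b := by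
  rw [Dat.V, map_sub, Dat.pd_phi, Dat.der_ldt]
  have h1 : ∀ i k, pd b (hess (gdat n s hs).ψ k i) = 0 := by
    intro i k
    have : (gdat n s hs).ψ = gpsi n s := rfl
    rw [this, hess_gpsi]
    split_ifs
    · exact (pd b).map_algebraMap s
    · simp
  have h2 : ∀ a, X a * hess (gdat n s hs).ψ b a = if b = a then s • X b else 0 := by
    intro a
    have : (gdat n s hs).ψ = gpsi n s := rfl
    rw [this, hess_gpsi]
    by_cases h : b = a
    · subst h
      simp only [if_true]
      rw [mul_comm, ← Algebra.smul_def]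
    · simp [h]
  simp only [h1, h2, mul_zero, sum_const_zero, sub_zero, sum_ite_eq, mem_univ, if_true]

/-- the Gaussian algebra -/
noncomputable def gAlg (n : ℕ) (s : ℝ) (hs : 0 < s) : GAlg n (TA n) where
  D := fun a => (pd a : TA n →ₗ[ℝ] TA n)
  leib := by
    intro a f g
    show pd a (f * g) = pd a f * g + f * pd a g
    rw [(pd a).leibniz, smul_eq_mul, smul_eq_mul]; ring
  comm := pd_comm
  X := X
  DX := by
    intro a b
    show pd a (X b) = _
    rw [pd_X]
    by_cases h : a = b
    · subst h; simp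
    · rw [if_neg h, if_neg (fun h' => h h'.symm)]
  I := (gdat n s hs).Ev
  I_sq := fun f => (gdat n s hs).Ev_nonneg _ (fun x => mul_self_nonneg (f.1 x))
  s := s
  s_pos := hs
  ibp := by
    intro a f
    show (gdat n s hs).Ev (pd a f) = s * (gdat n s hs).Ev (X a * f)
    rw [Dat.Ev_pd, pd_gV, smul_mul_assoc, map_smul, smul_eq_mul]

theorem Ev_sq_eq_zero (P : Dat n) {f : TA n} (h : P.Ev (f * f) = 0) : f = 0 := by
  rw [Dat.Ev_apply] at h
  have hnn : ∀ x, 0 ≤ (f * f).1 x * Real.exp (-P.V.1 x) := fun x =>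
    mul_nonneg (mul_self_nonneg (f.1 x)) (Real.exp_pos _).le
  have hcont : Continuous (fun x => (f * f).1 x * Real.exp (-P.V.1 x)) := by
    have h1 : Continuous (f * f).1 := (ta_cd (f * f)).continuous
    have h2 : Continuous P.V.1 := (ta_cd P.V).continuous
    fun_prop
  rw [integral_eq_zero_iff_of_nonneg hnn (P.integrable_mul _)] at h
  have h2 := (Continuous.ae_eq_iff_eq volume hcont continuous_const).mp h
  apply Subtype.ext
  funext x
  have h3 := congrFun h2 x
  have h4 : (f * f).1 x * Real.exp (-P.V.1 x) = 0 := h3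
  rcases mul_eq_zero.mp h4 with h5 | h5
  · have h6 : f.1 x * f.1 x = 0 := h5
    exact mul_self_eq_zero.mp h6
  · exact absurd h5 (Real.exp_pos _).ne'

/-- polynomials of degree `≤ d` -/
noncomputable def Pol (n : ℕ) : ℕ → Submodule ℝ (TA n)
  | 0 => Submodule.span ℝ {1}
  | d + 1 => Pol n d ⊔ ⨆ a, (Pol n d).map (LinearMap.mulLeft ℝ (X a : TA n))

theorem Pol_fin : ∀ d, FiniteDimensional ℝ (Pol n d)
  | 0 => FiniteDimensional.span_singleton ℝ 1
  | d + 1 => by
    have := Pol_fin d
    rw [Pol]
    infer_instance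

theorem Pol_le_succ (d : ℕ) : Pol n d ≤ Pol n (d + 1) := le_sup_left

theorem Pol_mono : Monotone (Pol n) := monotone_nat_of_le_succ Pol_le_succ

theorem X_mul_mem (a : Fin n) (d : ℕ) {f : TA n} (hf : f ∈ Pol n d) : X a * f ∈ Pol n (d + 1) := by
  refine (le_sup_right : _ ≤ Pol n (d + 1)) ?_
  refine (le_iSup (fun a => (Pol n d).map (LinearMap.mulLeft ℝ (X a : TA n))) a) ?_
  exact ⟨f, hf, rfl⟩

theorem pd_mem0 (a : Fin n) {f : TA n} (hf : f ∈ Pol n 0) : pd a f = 0 := by
  rw [Pol, Submodule.mem_span_singleton] at hf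
  obtain ⟨t, rfl⟩ := hf
  rw [(pd a).map_smul, (pd a).map_one_eq_zero, smul_zero]

theorem pd_mem (a : Fin n) : ∀ d, ∀ f ∈ Pol n (d + 1), pd a f ∈ Pol n d := by
  intro d
  induction d with
  | zero =>
    intro f hf
    have key : Pol n (0 + 1) ≤ (Pol n 0).comap (pd a : TA n →ₗ[ℝ] TA n) := by
      rw [Pol]
      refine sup_le ?_ (iSup_le ?_)
      · intro g hg
        show pd a g ∈ Pol n 0
        rw [pd_mem0 a hg]; exact Submodule.zero_mem _
      · intro b
        rintro _ ⟨g, hg, rfl⟩
        show pd a (X b * g) ∈ Pol n 0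
        rw [(pd a).leibniz, pd_mem0 a hg, smul_zero, zero_add, pd_X, smul_eq_mul]
        split_ifs
        · rw [mul_one]; exact hg
        · rw [mul_zero]; exact Submodule.zero_mem _
    exact key hf
  | succ d ih =>
    intro f hf
    have key : Pol n (d + 1 + 1) ≤ (Pol n (d + 1)).comap (pd a : TA n →ₗ[ℝ] TA n) := by
      rw [Pol]
      refine sup_le ?_ (iSup_le ?_)
      · intro g hg
        show pd a g ∈ Pol n (d + 1)
        exact Pol_le_succ d (ih g hg)
      · intro b
        rintro _ ⟨g, hg, rfl⟩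
        show pd a (X b * g) ∈ Pol n (d + 1)
        rw [(pd a).leibniz, pd_X, smul_eq_mul, smul_eq_mul]
        refine Submodule.add_mem _ (X_mul_mem b d (ih g hg)) ?_
        split_ifs
        · rw [mul_one]; exact hg
        · rw [mul_zero]; exact Submodule.zero_mem _
    exact key hf

noncomputable def polFil (n : ℕ) (s : ℝ) (hs : 0 < s) : GAlg.Fil (gAlg n s hs) where
  P := Pol n
  fin := Pol_fin
  mono := Pol_mono
  D0 := fun a _ hf => pd_mem0 a hf
  DP := fun a d f hf => pd_mem a d f hf
  XP := fun a d _ hf => X_mul_mem a d hf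
  nd := fun _ _ _ h => Ev_sq_eq_zero _ h

end Vale.Agent.P227.M.GAL
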