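import Vale.Agent.P227.M.Loc.TauB

/-! # `log det` is concave, with a quadratic remainder -/

open Matrix

namespace Vale.Agent.P227.M.GAL.LogDet

variable {n : ℕ}

theorem spec {A : Matrix (Fin n) (Fin n) ℝ} (hA : A.IsHermitian) :
    ∃ U : Matrix (Fin n) (Fin n) ℝ, Uᵀ * U = 1 ∧ U * Uᵀ = 1 ∧
      A = U * diagonal hA.eigenvalues * Uᵀ := by
  refine ⟨(hA.eigenvectorUnitary : Matrix (Fin n) (Fin n) ℝ), ?_, ?_, ?_⟩
  · have := Matrix.mem_unitaryGroup_iff'.mp hA.eigenvectorUnitary.2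
    rwa [Matrix.star_eq_conjTranspose, Matrix.conjTranspose_eq_transpose_of_trivial] at this
  · have := Matrix.mem_unitaryGroup_iff.mp hA.eigenvectorUnitary.2
    rwa [Matrix.star_eq_conjTranspose, Matrix.conjTranspose_eq_transpose_of_trivial] at this
  · have h := hA.spectral_theorem
    rw [Unitary.conjStarAlgAut_apply, Matrix.star_eq_conjTranspose,
      Matrix.conjTranspose_eq_transpose_of_trivial] at h
    exact h

theorem exists_root {P : Matrix (Fin n) (Fin n) ℝ} (hP : P.PosDef) :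
    ∃ S : Matrix (Fin n) (Fin n) ℝ, IsUnit S ∧ P = Sᵀ * S := by
  obtain ⟨U, h1, h2, h3⟩ := spec hP.isHermitian
  set l := hP.isHermitian.eigenvalues with hl0
  have hl : ∀ i, 0 < l i := hP.eigenvalues_pos
  have hS : P = (diagonal (fun i => √(l i)) * Uᵀ)ᵀ * (diagonal (fun i => √(l i)) * Uᵀ) := by
    rw [Matrix.transpose_mul, Matrix.transpose_transpose, Matrix.diagonal_transpose]
    conv_lhs => rw [h3]
    calc U * diagonal l * Uᵀ = U * (diagonal (fun i => √(l i)) * diagonal (fun i => √(l i))) * Uᵀ := by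
          rw [Matrix.diagonal_mul_diagonal]
          congr 3
          funext i
          rw [Real.mul_self_sqrt (hl i).le]
      _ = _ := by simp only [Matrix.mul_assoc]
  refine ⟨_, ?_, hS⟩
  rw [Matrix.isUnit_iff_isUnit_det]
  have hd := congrArg Matrix.det hS
  rw [Matrix.det_mul, Matrix.det_transpose] at hd
  rw [isUnit_iff_ne_zero]
  intro h0
  rw [h0, mul_zero] at hd
  exact hP.det_pos.ne' hd

theorem conj_posDef {Q S : Matrix (Fin n) (Fin n) ℝ} (hQ : Q.PosDef) (hS : IsUnit S) :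
    (S * Q * Sᵀ).PosDef := by
  have := (Matrix.IsUnit.posDef_star_right_conjugate_iff (x := Q) hS).mpr hQ
  rwa [Matrix.star_eq_conjTranspose, Matrix.conjTranspose_eq_transpose_of_trivial] at this

theorem log_det {R : Matrix (Fin n) (Fin n) ℝ} (hR : R.PosDef) :
    Real.log R.det = ∑ i, Real.log (hR.isHermitian.eigenvalues i) := by
  rw [hR.isHermitian.det_eq_prod_eigenvalues]
  rw [← Real.log_prod]
  · rfl
  · intro i _
    exact (hR.eigenvalues_pos i).ne'

theorem trace_eq {R : Matrix (Fin n) (Fin n) ℝ} (hR : R.IsHermitian) :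
    R.trace = ∑ i, hR.eigenvalues i := by
  rw [hR.trace_eq_sum_eigenvalues]
  rfl

theorem trace_mul_ge {P Q : Matrix (Fin n) (Fin n) ℝ} (hP : P.PosDef) (hQ : Q.PosDef) :
    (n : ℝ) + (Real.log P.det + Real.log Q.det) ≤ (P * Q).trace := by
  obtain ⟨S, hS, rfl⟩ := exists_root hP
  have hR := conj_posDef hQ hS
  have h0 : S.det ≠ 0 := by
    rw [Matrix.isUnit_iff_isUnit_det] at hS
    exact hS.ne_zero
  have e1 : (Sᵀ * S * Q).trace = (S * Q * Sᵀ).trace := by
    rw [Matrix.mul_assoc, Matrix.trace_mul_comm]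
  have e2 : Real.log (Sᵀ * S).det + Real.log Q.det = Real.log (S * Q * Sᵀ).det := by
    rw [Matrix.det_mul, Matrix.det_mul, Matrix.det_mul, Matrix.det_transpose,
      ← Real.log_mul (mul_ne_zero h0 h0) hQ.det_pos.ne']
    congr 1
    ring
  rw [e1, e2, log_det hR, trace_eq hR.isHermitian]
  have h1 : (n : ℝ) = ∑ _i : Fin n, (1 : ℝ) := by simp
  rw [h1, ← Finset.sum_add_distrib]
  refine Finset.sum_le_sum fun i _ => ?_
  have := Real.log_le_sub_one_of_pos (hR.eigenvalues_pos i)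
  linarith

/-- concavity of `log det` -/
theorem log_det_le {A B : Matrix (Fin n) (Fin n) ℝ} (hA : A.PosDef) (hB : B.PosDef) :
    Real.log B.det ≤ Real.log A.det + (A⁻¹ * (B - A)).trace := by
  have h := trace_mul_ge hA.inv hB
  have hdA : IsUnit A.det := (Matrix.isUnit_iff_isUnit_det A).1 hA.isUnit
  rw [Matrix.det_nonsing_inv, Ring.inverse_eq_inv', Real.log_inv] at h
  rw [Matrix.mul_sub, Matrix.nonsing_inv_mul _ hdA, Matrix.trace_sub, Matrix.trace_one,
    Fintype.card_fin]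
  linarith

/-- quadratic remainder -/
theorem log_det_ge {A B : Matrix (Fin n) (Fin n) ℝ} (hA : A.PosDef) (hB : B.PosDef) {c : ℝ}
    (hc : 0 < c) (h : ∀ v : E n, c * ‖v‖ ^ 2 ≤ qf A v) (h' : ∀ v : E n, c * ‖v‖ ^ 2 ≤ qf B v)
    {d : ℝ} (hd : ∀ i j, |B i j - A i j| ≤ d) :
    |Real.log B.det - Real.log A.det - (A⁻¹ * (B - A)).trace| ≤
      (n : ℝ) ^ 4 * (1 / c) ^ 2 * d ^ 2 := by
  have h1 := log_det_le hA hB
  have h2 := log_det_le hB hA
  have h3 : (A⁻¹ * (B - A)).trace + (B⁻¹ * (A - B)).trace =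
      ∑ i, ∑ j, (A⁻¹ i j - B⁻¹ i j) * (B j i - A j i) := by
    have e : (A⁻¹ * (B - A)).trace + (B⁻¹ * (A - B)).trace = ((A⁻¹ - B⁻¹) * (B - A)).trace := by
      rw [Matrix.sub_mul, Matrix.trace_sub, ← neg_sub B A, Matrix.mul_neg, Matrix.trace_neg]
      ring
    rw [e, Matrix.trace]
    refine Finset.sum_congr rfl fun i _ => ?_
    rw [Matrix.diag_apply, Matrix.mul_apply]
    rfl
  have h4 : (A⁻¹ * (B - A)).trace + (B⁻¹ * (A - B)).trace ≤ (n : ℝ) ^ 4 * (1 / c) ^ 2 * d ^ 2 := by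
    rw [h3]
    have hd' : ∀ i j, |A i j - B i j| ≤ d := fun i j => by rw [abs_sub_comm]; exact hd i j
    calc ∑ i, ∑ j, (A⁻¹ i j - B⁻¹ i j) * (B j i - A j i)
        ≤ ∑ _i : Fin n, ∑ _j : Fin n, ((n : ℝ) ^ 2 * (1 / c) ^ 2 * d) * d := by
          refine Finset.sum_le_sum fun i _ => Finset.sum_le_sum fun j _ => ?_
          refine (le_abs_self _).trans ?_
          rw [abs_mul]
          have h5 := Loc.abs_inv_sub_le hA hB hc h h' hd' i j
          have h6 := hd j i
          exact mul_le_mul h5 h6 (abs_nonneg _) ((abs_nonneg _).trans h5)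
      _ = (n : ℝ) ^ 4 * (1 / c) ^ 2 * d ^ 2 := by
          simp only [Finset.sum_const, Finset.card_univ, Fintype.card_fin, nsmul_eq_mul]
          ring
  rw [abs_le]
  constructor <;> linarith

end Vale.Agent.P227.M.GAL.LogDet
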