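import Mathlib

/-! # Mollification with the scaled kernel `d^{-n} η(z/d)`, vector valued functions -/

open MeasureTheory Filter Topology Set
open scoped Convolution ContDiff

namespace Vale.Agent.P227.M.GAL.Mo

variable {E : Type} [NormedAddCommGroup E] [InnerProductSpace ℝ E] [FiniteDimensional ℝ E]
  [MeasurableSpace E] [BorelSpace E]

/-- the fixed bump -/
noncomputable def bmp (E : Type) [NormedAddCommGroup E] [InnerProductSpace ℝ E] :
    ContDiffBump (0 : E) where
  rIn := 1 / 2
  rOut := 1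
  rIn_pos := by positivity
  rIn_lt_rOut := by norm_num

/-- the fixed profile -/
noncomputable def eta (z : E) : ℝ := (bmp E).normed volume z

theorem eta_contDiff : ContDiff ℝ ∞ (eta : E → ℝ) := (bmp E).contDiff_normed

theorem eta_nonneg (z : E) : 0 ≤ eta z := (bmp E).nonneg_normed z

theorem eta_neg (z : E) : eta (-z) = eta z := (bmp E).normed_neg z

theorem eta_compact : HasCompactSupport (eta : E → ℝ) := (bmp E).hasCompactSupport_normed

theorem eta_integral : ∫ z : E, eta z = 1 := (bmp E).integral_normed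

theorem eta_integrable : Integrable (eta : E → ℝ) := (bmp E).integrable_normed

theorem eta_supp {z : E} (h : eta z ≠ 0) : ‖z‖ < 1 := by
  have h1 : z ∈ Function.support ((bmp E).normed volume) := h
  rw [(bmp E).support_normed_eq] at h1
  simpa [bmp] using h1

/-- the scaled kernel -/
noncomputable def ker (d : ℝ) (z : E) : ℝ := (d ^ Module.finrank ℝ E)⁻¹ * eta (d⁻¹ • z)

theorem ker_contDiff (d : ℝ) : ContDiff ℝ ∞ (ker d : E → ℝ) := by
  unfold ker
  exact contDiff_const.mul (eta_contDiff.comp (contDiff_const_smul _))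

theorem ker_nonneg {d : ℝ} (hd : 0 < d) (z : E) : 0 ≤ ker d z :=
  mul_nonneg (by positivity) (eta_nonneg _)

theorem ker_neg (d : ℝ) (z : E) : ker d (-z) = ker d z := by
  unfold ker
  rw [smul_neg, eta_neg]

theorem ker_supp {d : ℝ} (hd : 0 < d) {z : E} (h : ker d z ≠ 0) : ‖z‖ ≤ d := by
  have h1 : eta (d⁻¹ • z) ≠ 0 := fun h0 => h (by unfold ker; rw [h0, mul_zero])
  have h2 := eta_supp h1
  rw [norm_smul, norm_inv, Real.norm_of_nonneg hd.le, inv_mul_lt_iff₀ hd, mul_one] at h2
  exact h2.le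

theorem ker_compact {d : ℝ} (hd : 0 < d) : HasCompactSupport (ker d : E → ℝ) := by
  refine HasCompactSupport.intro (isCompact_closedBall (0 : E) d) fun z hz => ?_
  by_contra h
  exact hz (by simpa using ker_supp hd h)

theorem ker_continuous (d : ℝ) : Continuous (ker d : E → ℝ) := (ker_contDiff d).continuous

theorem ker_integrable {d : ℝ} (hd : 0 < d) : Integrable (ker d : E → ℝ) :=
  (ker_continuous d).integrable_of_hasCompactSupport (ker_compact hd)

theorem ker_integral {d : ℝ} (hd : 0 < d) : ∫ z : E, ker d z = 1 := by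
  unfold ker
  rw [integral_const_mul, Measure.integral_comp_smul, eta_integral, smul_eq_mul, mul_one,
    inv_pow, inv_inv, abs_of_pos (by positivity), inv_mul_cancel₀ (by positivity)]

theorem fderiv_ker (d : ℝ) (z : E) :
    fderiv ℝ (ker d) z = (d ^ Module.finrank ℝ E)⁻¹ • d⁻¹ • fderiv ℝ (eta : E → ℝ) (d⁻¹ • z) := by
  have h1 : DifferentiableAt ℝ (eta : E → ℝ) (d⁻¹ • z) :=
    (eta_contDiff.differentiable (by simp)).differentiableAt
  have h2 : HasFDerivAt (fun z : E => d⁻¹ • z) (d⁻¹ • ContinuousLinearMap.id ℝ E) z :=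
    (hasFDerivAt_id z).const_smul d⁻¹
  have h3 := (h1.hasFDerivAt.comp z h2).const_mul ((d ^ Module.finrank ℝ E)⁻¹)
  have h4 : HasFDerivAt (ker d) ((d ^ Module.finrank ℝ E)⁻¹ •
      (fderiv ℝ (eta : E → ℝ) (d⁻¹ • z)).comp (d⁻¹ • ContinuousLinearMap.id ℝ E)) z := h3
  rw [h4.fderiv]
  ext v
  simp

theorem fderiv_ker_compact {d : ℝ} (hd : 0 < d) : HasCompactSupport (fderiv ℝ (ker d : E → ℝ)) :=
  (ker_compact hd).fderiv ℝ

theorem fderiv_ker_cont (d : ℝ) : Continuous (fderiv ℝ (ker d : E → ℝ)) :=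
  (ker_contDiff d).continuous_fderiv (by simp)

theorem integral_norm_fderiv_ker {d : ℝ} (hd : 0 < d) :
    ∫ z : E, ‖fderiv ℝ (ker d) z‖ = d⁻¹ * ∫ z : E, ‖fderiv ℝ (eta : E → ℝ) z‖ := by
  have h1 : ∀ z : E, ‖fderiv ℝ (ker d) z‖ =
      (d ^ Module.finrank ℝ E)⁻¹ * d⁻¹ * ‖fderiv ℝ (eta : E → ℝ) (d⁻¹ • z)‖ := by
    intro z
    rw [fderiv_ker, norm_smul, norm_smul, Real.norm_of_nonneg (by positivity),
      Real.norm_of_nonneg (by positivity), mul_assoc]
  simp_rw [h1]
  rw [integral_const_mul, Measure.integral_comp_smul (μ := volume)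
    (fun z : E => ‖fderiv ℝ (eta : E → ℝ) z‖), smul_eq_mul,
    inv_pow, inv_inv, abs_of_pos (by positivity)]
  have : (d ^ Module.finrank ℝ E) ≠ 0 := by positivity
  field_simp

/-! ## mollification -/

variable {G : Type} [NormedAddCommGroup G] [NormedSpace ℝ G]

/-- mollification -/
noncomputable def mo (d : ℝ) (f : E → G) (x : E) : G := ∫ z, ker d z • f (x - z)

theorem mo_eq_conv (d : ℝ) (f : E → G) :
    mo d f = (ker d ⋆[ContinuousLinearMap.lsmul ℝ ℝ, volume] f) := by
  funext x
  simp [mo, convolution_def]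

theorem mo_integrable {d : ℝ} (hd : 0 < d) {f : E → G} (hf : Continuous f) (x : E) :
    Integrable (fun z => ker d z • f (x - z)) := by
  refine Continuous.integrable_of_hasCompactSupport ?_ ?_
  · exact (ker_continuous d).smul (hf.comp (by fun_prop))
  · exact (ker_compact hd).smul_right

theorem mo_contDiff {d : ℝ} (hd : 0 < d) {f : E → G} (hf : Continuous f) :
    ContDiff ℝ ∞ (mo d f) := by
  rw [mo_eq_conv]
  exact (ker_compact hd).contDiff_convolution_left _ (ker_contDiff d) hf.locallyIntegrable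

theorem mo_hasFDerivAt [CompleteSpace G] {d : ℝ} (hd : 0 < d) {f : E → G} {f' : E → E →L[ℝ] G}
    (h : ∀ x, HasFDerivAt f (f' x) x) (hc : Continuous f') (x : E) :
    HasFDerivAt (mo d f) (mo d f' x) x := by
  have hf : Continuous f := continuous_iff_continuousAt.2 fun x => (h x).continuousAt
  obtain ⟨B, hB⟩ := (isCompact_closedBall x (1 + d)).exists_bound_of_continuousOn hc.continuousOn
  refine hasFDerivAt_integral_of_dominated_of_fderiv_le (μ := (volume : Measure E)) (𝕜 := ℝ)
    (F := fun x z => ker d z • f (x - z)) (F' := fun x z => ker d z • f' (x - z)) (x₀ := x)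
    (s := Metric.ball x 1) (bound := fun z => ker d z * B) (Metric.ball_mem_nhds x one_pos)
    (Eventually.of_forall fun y => ?_) ?_ ?_ ?_ ?_ ?_
  · exact (mo_integrable hd hf y).aestronglyMeasurable
  · exact mo_integrable hd hf x
  · exact ((ker_continuous d).smul (hc.comp (by fun_prop))).aestronglyMeasurable
  · refine Eventually.of_forall fun z y hy => ?_
    rw [norm_smul, Real.norm_of_nonneg (ker_nonneg hd z)]
    by_cases hz : ker d z = 0
    · simp [hz]
    · refine mul_le_mul_of_nonneg_left (hB _ ?_) (ker_nonneg hd z)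
      have h1 := ker_supp hd hz
      rw [Metric.mem_closedBall, dist_eq_norm]
      rw [Metric.mem_ball, dist_eq_norm] at hy
      calc ‖y - z - x‖ = ‖(y - x) - z‖ := by congr 1; abel
        _ ≤ ‖y - x‖ + ‖z‖ := norm_sub_le _ _
        _ ≤ 1 + d := by linarith
  · exact (ker_integrable hd).mul_const _
  · refine Eventually.of_forall fun z y _ => ?_
    have h5 : HasFDerivAt (fun y : E => y - z) (ContinuousLinearMap.id ℝ E) y :=
      (hasFDerivAt_id y).sub_const z
    have h6 := HasFDerivAt.comp y (h (y - z)) h5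
    rw [ContinuousLinearMap.comp_id] at h6
    exact h6.const_smul _

/-- derivative on the kernel -/
theorem mo_hasFDerivAt_ker [CompleteSpace G] {d : ℝ} (hd : 0 < d) {f : E → G} (hf : Continuous f) (x : E) :
    HasFDerivAt (mo d f) (∫ z, (fderiv ℝ (ker d) z).smulRight (f (x - z))) x := by
  rw [mo_eq_conv]
  have h := (ker_compact hd).hasFDerivAt_convolution_left (ContinuousLinearMap.lsmul ℝ ℝ)
    ((ker_contDiff (E := E) d).of_le (by norm_cast)) (hf.locallyIntegrable (μ := volume)) x
  refine h.congr_fderiv ?_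
  rw [convolution_def]
  refine integral_congr_ae (Eventually.of_forall fun z => ?_)
  ext v
  simp [ContinuousLinearMap.precompL_apply]

theorem mo_fderiv_apply [CompleteSpace G] {d : ℝ} (hd : 0 < d) {f : E → G} (hf : Continuous f) (x v : E) :
    fderiv ℝ (mo d f) x v = ∫ z, (fderiv ℝ (ker d) z v) • f (x - z) := by
  rw [(mo_hasFDerivAt_ker hd hf x).fderiv, ContinuousLinearMap.integral_apply]
  · rfl
  · refine Continuous.integrable_of_hasCompactSupport ?_ ?_
    · exact ((ContinuousLinearMap.smulRightL ℝ E G).continuous₂).comp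
        ((fderiv_ker_cont d).prodMk (hf.comp (by fun_prop)))
    · refine (fderiv_ker_compact hd).mono fun z hz => ?_
      intro h0
      apply hz
      simp [h0]

/-! ## bounded iterated derivatives -/

theorem conv_bdd (f : E → G) (hf : Continuous f) {C : ℝ} (hC : ∀ x, ‖f x‖ ≤ C) :
    ∀ k : ℕ, ∀ (F' G' : Type) [NormedAddCommGroup F'] [NormedSpace ℝ F'] [NormedAddCommGroup G']
      [NormedSpace ℝ G'] [CompleteSpace G'] (κ : E → F') (L : F' →L[ℝ] G →L[ℝ] G'), ContDiff ℝ ∞ κ →
      HasCompactSupport κ →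
      ∃ B : ℝ, ∀ x, ‖iteratedFDeriv ℝ k (κ ⋆[L, volume] f) x‖ ≤ B := by
  intro k
  induction k with
  | zero =>
    intro F' G' _ _ _ _ _ κ L hκ hs
    have hint : Integrable κ := hκ.continuous.integrable_of_hasCompactSupport hs
    refine ⟨∫ z, ‖L‖ * ‖κ z‖ * C, fun x => ?_⟩
    rw [norm_iteratedFDeriv_zero, convolution_def]
    refine norm_integral_le_of_norm_le ((hint.norm.const_mul _).mul_const _) ?_
    refine Eventually.of_forall fun z => ?_
    calc ‖L (κ z) (f (x - z))‖ ≤ ‖L‖ * ‖κ z‖ * ‖f (x - z)‖ := L.le_opNorm₂ _ _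
      _ ≤ _ := mul_le_mul_of_nonneg_left (hC _) (by positivity)
  | succ k ih =>
    intro F' G' _ _ _ _ _ κ L hκ hs
    obtain ⟨B, hB⟩ := ih (E →L[ℝ] F') (E →L[ℝ] G') (fderiv ℝ κ) (L.precompL E)
      (hκ.fderiv_right (by norm_cast)) (hs.fderiv ℝ)
    refine ⟨B, fun x => ?_⟩
    rw [← norm_iteratedFDeriv_fderiv]
    have : fderiv ℝ (κ ⋆[L, volume] f) = (fderiv ℝ κ ⋆[L.precompL E, volume] f) := by
      funext y
      exact (hs.hasFDerivAt_convolution_left L (hκ.of_le (by norm_cast))
        (hf.locallyIntegrable (μ := volume)) y).fderiv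
    rw [this]
    exact hB x

theorem mo_bdd [CompleteSpace G] {d : ℝ} (hd : 0 < d) (f : E → G) (hf : Continuous f) {C : ℝ}
    (hC : ∀ x, ‖f x‖ ≤ C) (k : ℕ) : ∃ B : ℝ, ∀ x, ‖iteratedFDeriv ℝ k (mo d f) x‖ ≤ B := by
  rw [mo_eq_conv]
  exact conv_bdd f hf hC k ℝ G (ker d) _ (ker_contDiff d) (ker_compact hd)

end Vale.Agent.P227.M.GAL.Mo
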