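import Vale.Agent.P227.M.GAL.MoK
import Vale.Agent.P227.M.GAL.LogDet
import Vale.Agent.P227.M.Bas
import Vale.Agent.P227.M.ID.KeySmStmt

/-! # (TG-A) mollification of `ψ`: the potentials `V_d` have uniformly close gradients -/

open MeasureTheory Filter Topology Set
open scoped ContDiff

namespace Vale.Agent.P227.M.GAL.MollA

open Mo

variable {n : ℕ} {d : ℝ}

/-! ## scalar rules -/

theorem mo_apply (f : E n → ℝ) (x : E n) : mo d f x = ∫ z, ker d z * f (x - z) := by
  simp [mo]

theorem mo_const (hd : 0 < d) (a : ℝ) (x : E n) : mo d (fun _ : E n => a) x = a := by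
  rw [mo_apply, integral_mul_const, ker_integral hd, one_mul]

theorem mo_integrable' (hd : 0 < d) {f : E n → ℝ} (hf : Continuous f) (x : E n) :
    Integrable (fun z => ker d z * f (x - z)) := by
  simpa using mo_integrable hd hf x

theorem mo_sum (hd : 0 < d) {ι : Type} (s : Finset ι) {f : ι → E n → ℝ}
    (hf : ∀ i ∈ s, Continuous (f i)) (x : E n) :
    mo d (fun y => ∑ i ∈ s, f i y) x = ∑ i ∈ s, mo d (f i) x := by
  simp only [mo_apply, Finset.mul_sum]
  exact integral_finsetSum s fun i hi => mo_integrable' hd (hf i hi) x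

theorem mo_mul_const (f : E n → ℝ) (a : ℝ) (x : E n) :
    mo d (fun y => f y * a) x = mo d f x * a := by
  simp only [mo_apply, ← mul_assoc]
  rw [integral_mul_const]

theorem mo_const_mul (f : E n → ℝ) (a : ℝ) (x : E n) :
    mo d (fun y => a * f y) x = a * mo d f x := by
  simp only [mo_apply]
  rw [← integral_const_mul]
  congr 1
  funext z
  ring

theorem mo_sub (hd : 0 < d) {f g : E n → ℝ} (hf : Continuous f) (hg : Continuous g) (x : E n) :
    mo d (fun y => f y - g y) x = mo d f x - mo d g x := by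
  simp only [mo_apply, mul_sub]
  exact integral_sub (mo_integrable' hd hf x) (mo_integrable' hd hg x)

theorem mo_mono (hd : 0 < d) {f g : E n → ℝ} (hf : Continuous f) (hg : Continuous g)
    (h : ∀ y, f y ≤ g y) (x : E n) : mo d f x ≤ mo d g x := by
  simp only [mo_apply]
  exact integral_mono (mo_integrable' hd hf x) (mo_integrable' hd hg x)
    fun z => mul_le_mul_of_nonneg_left (h _) (ker_nonneg hd z)

theorem mo_neg {f : E n → ℝ} (hf : ∀ x, f (-x) = f x) (x : E n) : mo d f (-x) = mo d f x := by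
  simp only [mo_apply]
  rw [← integral_neg_eq_self]
  congr 1
  funext z
  rw [ker_neg, ← hf]
  congr 2
  abel

/-- closeness on the support gives closeness of the average -/
theorem mo_close (hd : 0 < d) {f : E n → ℝ} (hf : Continuous f) {a K : ℝ} (x : E n)
    (h : ∀ z : E n, ‖z‖ ≤ d → |f (x - z) - a| ≤ K) : |mo d f x - a| ≤ K := by
  have h1 : mo d f x - a = ∫ z, ker d z * (f (x - z) - a) := by
    rw [mo_apply]
    have h2 : a = ∫ z : E n, ker d z * a := by rw [integral_mul_const, ker_integral hd, one_mul]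
    conv_lhs => rw [h2]
    rw [← integral_sub (mo_integrable' hd hf x) ((ker_integrable hd).mul_const a)]
    congr 1
    funext z
    ring
  rw [h1]
  calc |∫ z, ker d z * (f (x - z) - a)| ≤ ∫ z : E n, ker d z * K := by
        rw [← Real.norm_eq_abs]
        refine norm_integral_le_of_norm_le ((ker_integrable hd).mul_const K)
          (Eventually.of_forall fun z => ?_)
        rw [norm_mul, Real.norm_of_nonneg (ker_nonneg hd z)]
        by_cases hz : ker d z = 0
        · simp [hz]
        · exact mul_le_mul_of_nonneg_left (h z (ker_supp hd hz)) (ker_nonneg hd z)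
    _ = K := by rw [integral_mul_const, ker_integral hd, one_mul]

theorem pd_mo (hd : 0 < d) {f : E n → ℝ} (hf : ContDiff ℝ 1 f) (i : Fin n) (x : E n) :
    pd i (mo d f) x = mo d (pd i f) x := by
  have h := mo_hasFDerivAt hd (f := f) (f' := fderiv ℝ f)
    (fun y => ((hf.differentiable (by norm_num)) y).hasFDerivAt) (hf.continuous_fderiv (by norm_num)) x
  unfold pd
  rw [h.fderiv]
  unfold mo
  rw [ContinuousLinearMap.integral_apply (mo_integrable hd (hf.continuous_fderiv (by norm_num)) x)]
  rfl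

theorem pd_mo_ker (hd : 0 < d) {f : E n → ℝ} (hf : Continuous f) (i : Fin n) (x : E n) :
    pd i (mo d f) x = ∫ z, fderiv ℝ (ker d) z (ei i) * f (x - z) := by
  unfold pd
  rw [mo_fderiv_apply hd hf]
  rfl

theorem integral_dker (hd : 0 < d) (i : Fin n) : ∫ z : E n, fderiv ℝ (ker d) z (ei i) = 0 := by
  have h := pd_mo_ker hd (f := fun _ : E n => (1 : ℝ)) continuous_const i 0
  simp only [mul_one] at h
  rw [← h]
  have h2 : mo d (fun _ : E n => (1 : ℝ)) = fun _ => 1 := funext fun x => mo_const hd 1 x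
  rw [h2]
  simp [pd]

theorem dker_integrable (hd : 0 < d) {f : E n → ℝ} (hf : Continuous f) (i : Fin n) (x : E n) :
    Integrable (fun z => fderiv ℝ (ker d) z (ei i) * f (x - z)) := by
  refine Continuous.integrable_of_hasCompactSupport ?_ ?_
  · exact ((fderiv_ker_cont d).clm_apply continuous_const).mul (hf.comp (by fun_prop))
  · refine (fderiv_ker_compact hd).mono fun z hz => ?_
    intro h0
    apply hz
    simp [h0]

theorem dker_supp (hd : 0 < d) {z : E n} (h : fderiv ℝ (ker d) z ≠ 0) : ‖z‖ ≤ d := by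
  have h1 : z ∈ tsupport (ker d : E n → ℝ) := support_fderiv_subset ℝ h
  have h2 : tsupport (ker d : E n → ℝ) ⊆ Metric.closedBall 0 d := by
    refine closure_minimal (fun y hy => ?_) Metric.isClosed_closedBall
    simpa using ker_supp hd hy
  simpa using h2 h1

/-- an integral against `∂_i ker` of a function that is nearly constant on the support -/
theorem dker_close (hd : 0 < d) {f : E n → ℝ} (hf : Continuous f) {a K : ℝ} (i : Fin n) (x : E n)
    (h : ∀ z : E n, ‖z‖ ≤ d → |f (x - z) - a| ≤ K) :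
    |∫ z, fderiv ℝ (ker d) z (ei i) * f (x - z)| ≤
      K * (d⁻¹ * ∫ z : E n, ‖fderiv ℝ (eta : E n → ℝ) z‖) := by
  have h1 : ∫ z, fderiv ℝ (ker d) z (ei i) * f (x - z) =
      ∫ z, fderiv ℝ (ker d) z (ei i) * (f (x - z) - a) := by
    have h2 : ∫ z : E n, fderiv ℝ (ker d) z (ei i) * a = 0 := by
      rw [integral_mul_const, integral_dker hd, zero_mul]
    have h3 := integral_sub (dker_integrable hd hf i x)
      (dker_integrable hd (f := fun _ => a) continuous_const i x)
    rw [h2, sub_zero] at h3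
    rw [← h3]
    congr 1
    funext z
    ring
  rw [h1, ← integral_norm_fderiv_ker hd, ← integral_const_mul, ← Real.norm_eq_abs]
  have hint : Integrable (fun z : E n => ‖fderiv ℝ (ker d) z‖) :=
    ((fderiv_ker_cont d).integrable_of_hasCompactSupport (fderiv_ker_compact hd)).norm
  refine norm_integral_le_of_norm_le (hint.const_mul K) (Eventually.of_forall fun z => ?_)
  rw [norm_mul]
  by_cases hz : fderiv ℝ (ker d) z = 0
  · simp [hz]
  · have h4 : ‖fderiv ℝ (ker d) z (ei i)‖ ≤ ‖fderiv ℝ (ker d) z‖ := by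
      have := (fderiv ℝ (ker d) z).le_opNorm (ei i)
      rwa [norm_ei, mul_one] at this
    rw [mul_comm K]
    exact mul_le_mul h4 (h z (dker_supp hd hz)) (abs_nonneg _) (norm_nonneg _)

/-! ## the mollified potential -/

section

variable {ψ V : E n → ℝ} {c C M : ℝ}

theorem hess_mo (hd : 0 < d) (hψ : ContDiff ℝ 2 ψ) (i j : Fin n) (x : E n) :
    hess (mo d ψ) x i j = mo d (fun y => hess ψ y i j) x := by
  unfold hess
  have h1 : pd j (mo d ψ) = mo d (pd j ψ) :=
    funext fun y => pd_mo hd (hψ.of_le (by norm_num)) j y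
  rw [h1, pd_mo hd (contDiff_pd hψ (by norm_num) j)]

theorem qf_hess_mo (hd : 0 < d) (hψ : ContDiff ℝ 2 ψ) (x v : E n) :
    qf (hess (mo d ψ) x) v = mo d (fun y => qf (hess ψ y) v) x := by
  unfold qf
  rw [mo_sum hd]
  · refine Finset.sum_congr rfl fun i _ => ?_
    rw [mo_sum hd]
    · refine Finset.sum_congr rfl fun j _ => ?_
      rw [mo_mul_const, mo_mul_const, hess_mo hd hψ]
    · intro j _
      exact ((continuous_hess hψ i j).mul continuous_const).mul continuous_const
  · intro i _
    exact continuous_finsetSum _ fun j _ =>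
      ((continuous_hess hψ i j).mul continuous_const).mul continuous_const

theorem continuous_qf (hψ : ContDiff ℝ 2 ψ) (v : E n) : Continuous (fun y => qf (hess ψ y) v) := by
  unfold qf
  exact continuous_finsetSum _ fun i _ => continuous_finsetSum _ fun j _ =>
      ((continuous_hess hψ i j).mul continuous_const).mul continuous_const

theorem abs_entry_le {A : Matrix (Fin n) (Fin n) ℝ} (hs : ∀ i j, A i j = A j i) {C : ℝ}
    (h0 : ∀ v : E n, 0 ≤ qf A v) (h1 : ∀ v : E n, qf A v ≤ C * ‖v‖ ^ 2) (i j : Fin n) :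
    |A i j| ≤ C := by
  have key : ∀ v w : E n, qf A (v + w) - qf A (v - w) = 4 * ∑ a, ∑ b, A a b * v a * w b := by
    intro v w
    have e : ∑ a, ∑ b, A a b * w a * v b = ∑ a, ∑ b, A a b * v a * w b := by
      rw [Finset.sum_comm]
      refine Finset.sum_congr rfl fun a _ => Finset.sum_congr rfl fun b _ => ?_
      rw [hs b a]
      ring
    have e2 : qf A (v + w) - qf A (v - w) =
        2 * (∑ a, ∑ b, A a b * v a * w b) + 2 * ∑ a, ∑ b, A a b * w a * v b := by
      unfold qf
      simp only [Finset.mul_sum, ← Finset.sum_add_distrib, ← Finset.sum_sub_distrib]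
      refine Finset.sum_congr rfl fun a _ => Finset.sum_congr rfl fun b _ => ?_
      simp only [PiLp.add_apply, PiLp.sub_apply]
      ring
    rw [e2, e]
    ring
  have h2 := key (ei i) (ei j)
  have h3 : ∑ a, ∑ b, A a b * (ei i : E n) a * (ei j : E n) b = A i j := by
    simp only [ei_apply]
    simp
  rw [h3] at h2
  have hp : ‖(ei i : E n) + ei j‖ ^ 2 ≤ 4 := by
    have h := norm_add_le (ei i : E n) (ei j)
    rw [norm_ei, norm_ei] at h
    nlinarith [norm_nonneg ((ei i : E n) + ei j)]
  have hm : ‖(ei i : E n) - ei j‖ ^ 2 ≤ 4 := by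
    have h := norm_sub_le (ei i : E n) (ei j)
    rw [norm_ei, norm_ei] at h
    nlinarith [norm_nonneg ((ei i : E n) - ei j)]
  have hC : 0 ≤ C := by
    have h4 := (h0 (ei i)).trans (h1 (ei i))
    rw [norm_ei] at h4
    linarith
  have a1 := h0 (ei i + ei j)
  have a2 := h0 (ei i - ei j)
  have a3 := (h1 (ei i + ei j)).trans (mul_le_mul_of_nonneg_left hp hC)
  have a4 := (h1 (ei i - ei j)).trans (mul_le_mul_of_nonneg_left hm hC)
  rw [abs_le]
  constructor <;> linarith

theorem norm_fderiv2_le (hψ : ContDiff ℝ 2 ψ) {C : ℝ} (h : ∀ x i j, |hess ψ x i j| ≤ C) (x : E n) :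
    ‖fderiv ℝ (fderiv ℝ ψ) x‖ ≤ (n : ℝ) ^ 2 * C := by
  rcases Nat.eq_zero_or_pos n with h0 | h0
  · subst h0
    have : fderiv ℝ (fderiv ℝ ψ) x = 0 := by
      ext v w
      have : v = 0 := Subsingleton.elim _ _
      rw [this]
      simp
    rw [this]
    simp
  have hC : 0 ≤ C := (abs_nonneg _).trans (h x ⟨0, h0⟩ ⟨0, h0⟩)
  refine ContinuousLinearMap.opNorm_le_bound₂ _ (by positivity) fun v w => ?_
  have e : fderiv ℝ (fderiv ℝ ψ) x v w = ∑ i, ∑ j, v i * w j * hess ψ x i j := by
    conv_lhs => rw [← sum_smul_ei v, ← sum_smul_ei w]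
    simp only [map_sum, map_smul, sum_apply, smul_apply,
      smul_eq_mul, hess_eq hψ, Finset.mul_sum]
    rw [Finset.sum_comm]
    refine Finset.sum_congr rfl fun i _ => Finset.sum_congr rfl fun j _ => ?_
    ring
  rw [e, Real.norm_eq_abs]
  calc |∑ i, ∑ j, v i * w j * hess ψ x i j| ≤ ∑ i, ∑ j, |v i * w j * hess ψ x i j| :=
        (Finset.abs_sum_le_sum_abs _ _).trans
          (Finset.sum_le_sum fun b _ => Finset.abs_sum_le_sum_abs _ _)
    _ ≤ ∑ _i : Fin n, ∑ _j : Fin n, ‖v‖ * ‖w‖ * C := by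
        refine Finset.sum_le_sum fun i _ => Finset.sum_le_sum fun j _ => ?_
        rw [abs_mul, abs_mul]
        exact mul_le_mul (mul_le_mul (abs_coord_le v i) (abs_coord_le w j) (abs_nonneg _)
          (norm_nonneg _)) (h x i j) (abs_nonneg _) (by positivity)
    _ = (n : ℝ) ^ 2 * C * ‖v‖ * ‖w‖ := by
        simp only [Finset.sum_const, Finset.card_univ, Fintype.card_fin, nsmul_eq_mul]
        ring

theorem nice_mo (hd : 0 < d) (h : MM ψ V c C M) : Nice (mo d ψ) c C := by
  have hC2 := h.C2
  have hqc := fun v => continuous_qf hC2 v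
  have hent : ∀ x i j, |hess ψ x i j| ≤ C := fun x i j =>
    abs_entry_le (hess_symm hC2 x)
      (fun v => (mul_nonneg h.c_pos.le (sq_nonneg _)).trans (h.lower x v)) (h.upper x) i j
  refine { c_pos := h.c_pos, smooth := mo_contDiff hd hC2.continuous, lower := ?_, upper := ?_,
           bdd := ?_, even := ?_ }
  · intro x v
    rw [qf_hess_mo hd hC2, ← mo_const hd (c * ‖v‖ ^ 2) x]
    exact mo_mono hd continuous_const (hqc v) (fun y => h.lower y v) x
  · intro x v
    rw [qf_hess_mo hd hC2, ← mo_const hd (C * ‖v‖ ^ 2) x]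
    exact mo_mono hd (hqc v) continuous_const (fun y => h.upper y v) x
  · intro k hk
    obtain ⟨m, rfl⟩ := Nat.exists_eq_add_of_le' hk
    have e1 : fderiv ℝ (mo d ψ) = mo d (fderiv ℝ ψ) := funext fun y =>
      (mo_hasFDerivAt hd (fun y => ((hC2.differentiable (by norm_num)) y).hasFDerivAt)
        (hC2.continuous_fderiv (by norm_num)) y).fderiv
    have h1 : ContDiff ℝ 1 (fderiv ℝ ψ) := hC2.fderiv_right (by norm_num)
    have e2 : fderiv ℝ (mo d (fderiv ℝ ψ)) = mo d (fderiv ℝ (fderiv ℝ ψ)) := funext fun y =>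
      (mo_hasFDerivAt hd (fun y => ((h1.differentiable (by norm_num)) y).hasFDerivAt)
        (h1.continuous_fderiv (by norm_num)) y).fderiv
    obtain ⟨B, hB⟩ := mo_bdd hd (fderiv ℝ (fderiv ℝ ψ)) (h1.continuous_fderiv (by norm_num))
      (norm_fderiv2_le hC2 hent) m
    refine ⟨B, fun x => ?_⟩
    rw [← norm_iteratedFDeriv_fderiv, ← norm_iteratedFDeriv_fderiv, e1, e2]
    exact hB x
  · intro x
    exact mo_neg h.even x

end

end Vale.Agent.P227.M.GAL.MollA
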