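import Vale.Agent.P227.M.GAL.MollA
import Vale.Agent.P227.M.BasEx

/-! # (TG-A), main theorem: `|∂_a V_d - ∂_a V| ≤ K d` -/

open MeasureTheory Filter Topology Set
open scoped ContDiff

namespace Vale.Agent.P227.M.GAL.MollA

open Mo

variable {n : ℕ} {d : ℝ} {ψ V : E n → ℝ} {c C M : ℝ}

theorem pd_xgrad {φ : E n → ℝ} (hφ : ContDiff ℝ 2 φ) (a : Fin n) (x : E n) :
    pd a (fun y => ∑ i, y i * pd i φ y) x = pd a φ x + ∑ i, x i * hess φ x a i := by
  have hd : ∀ i, Differentiable ℝ (pd i φ) := fun i =>
    (contDiff_pd (k := 1) hφ (by norm_num) i).differentiable (by norm_num)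
  have hc : ∀ i : Fin n, Differentiable ℝ (fun y : E n => y i) := fun i => by fun_prop
  have h0 := pd_sum Finset.univ (f := fun (i : Fin n) (y : E n) => y i * pd i φ y)
    (fun i _ => (hc i).mul (hd i)) a x
  rw [h0]
  have h1 : ∀ i, pd a (fun y : E n => y i * pd i φ y) x =
      (if i = a then pd a φ x else 0) + x i * hess φ x a i := by
    intro i
    rw [pd_mul (hc i) (hd i), pd_coord]
    by_cases h : i = a
    · subst h
      simp [hess]
    · simp [h, hess]
  simp_rw [h1]
  rw [Finset.sum_add_distrib]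
  simp

/-- `log det` of the Hessian is smooth -/
theorem contDiff_logdet {φ : E n → ℝ} {c C : ℝ} (h : Nice φ c C) :
    ContDiff ℝ (⊤ : ℕ∞) (fun x => Real.log (hess φ x).det) := by
  have hC2 : ContDiff ℝ 2 φ := h.toReg.C2
  have h1 : ContDiff ℝ (⊤ : ℕ∞) (fun x => (hess φ x).det) := by
    simp only [Matrix.det_apply]
    exact ContDiff.sum fun σ _ =>
      (contDiff_prod fun i _ => contDiff_hess_top h.smooth (σ i) i).const_smul _
  refine h1.log fun x => ?_
  exact (Loc.posDef_of_qf (hess_symm hC2 x) h.c_pos (h.lower x)).det_pos.ne'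

theorem contDiff_Vpsi {φ : E n → ℝ} {c C : ℝ} (h : Nice φ c C) : ContDiff ℝ (⊤ : ℕ∞) (Vpsi φ) := by
  unfold Vpsi
  refine (ContDiff.sub ?_ h.smooth).sub (contDiff_logdet h)
  exact ContDiff.sum fun i _ => ContDiff.mul (by fun_prop) (contDiff_pd_top h.smooth i)

/-- derivative of `log det` by the quadratic remainder -/
theorem pd_logdet {φ : E n → ℝ} {c C : ℝ} (h : Nice φ c C) (a : Fin n) (x : E n) :
    pd a (fun y => Real.log (hess φ y).det) x =
      ∑ i, ∑ j, (hess φ x)⁻¹ i j * pd a (fun y => hess φ y j i) x := by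
  have hC2 : ContDiff ℝ 2 φ := h.toReg.C2
  have hpd : ∀ y, (hess φ y).PosDef := fun y =>
    Loc.posDef_of_qf (hess_symm hC2 y) h.c_pos (h.lower y)
  -- along the line
  have hdl : DifferentiableAt ℝ (fun y => Real.log (hess φ y).det) x :=
    ((contDiff_logdet h).differentiable (by simp)) x
  have l1 : HasDerivAt (fun t : ℝ => Real.log (hess φ (x + t • ei a)).det)
      (pd a (fun y => Real.log (hess φ y).det) x) 0 := hdl.hasFDerivAt.hasLineDerivAt (ei a)
  have l2 : ∀ i j, HasDerivAt (fun t : ℝ => hess φ (x + t • ei a) i j)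
      (pd a (fun y => hess φ y i j) x) 0 := fun i j =>
    (((contDiff_hess_top h.smooth i j).differentiable (by simp)) x).hasFDerivAt.hasLineDerivAt
      (ei a)
  -- the linear part
  have l3 : HasDerivAt (fun t : ℝ => ((hess φ x)⁻¹ * (hess φ (x + t • ei a) - hess φ x)).trace)
      (∑ i, ∑ j, (hess φ x)⁻¹ i j * pd a (fun y => hess φ y j i) x) 0 := by
    have e : (fun t : ℝ => ((hess φ x)⁻¹ * (hess φ (x + t • ei a) - hess φ x)).trace) =
        fun t : ℝ => ∑ i, ∑ j, (hess φ x)⁻¹ i j * (hess φ (x + t • ei a) j i - hess φ x j i) := by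
      funext t
      simp only [Matrix.trace, Matrix.diag_apply, Matrix.mul_apply, Matrix.sub_apply]
    rw [e]
    refine HasDerivAt.fun_sum fun i _ => HasDerivAt.fun_sum fun j _ => ?_
    exact ((l2 j i).sub_const _).const_mul _
  -- the remainder has derivative zero
  have l4 : HasDerivAt (fun t : ℝ => Real.log (hess φ (x + t • ei a)).det -
      Real.log (hess φ x).det -
      ((hess φ x)⁻¹ * (hess φ (x + t • ei a) - hess φ x)).trace) 0 0 := by
    have hO : ∀ i j, (fun t : ℝ => hess φ (x + t • ei a) i j - hess φ x i j) =O[𝓝 0]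
        fun t : ℝ => t := by
      intro i j
      have := (l2 i j).isBigO_sub
      simpa using this
    have hbig : ∃ K : ℝ, ∀ᶠ t : ℝ in 𝓝 0, ∀ i j,
        |hess φ (x + t • ei a) i j - hess φ x i j| ≤ K * |t| := by
      choose K hK using fun i j => (hO i j).bound
      refine ⟨∑ i, ∑ j, |K i j|, ?_⟩
      have : ∀ᶠ t : ℝ in 𝓝 0, ∀ i j,
          ‖hess φ (x + t • ei a) i j - hess φ x i j‖ ≤ K i j * ‖t‖ :=
        eventually_all.2 fun i => eventually_all.2 fun j => hK i j
      filter_upwards [this] with t ht i j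
      refine (ht i j).trans (mul_le_mul_of_nonneg_right ?_ (norm_nonneg _))
      calc K i j ≤ |K i j| := le_abs_self _
        _ ≤ ∑ j, |K i j| := Finset.single_le_sum (f := fun j => |K i j|)
            (fun j _ => abs_nonneg _) (Finset.mem_univ j)
        _ ≤ ∑ i, ∑ j, |K i j| := Finset.single_le_sum (f := fun i => ∑ j, |K i j|)
            (fun i _ => Finset.sum_nonneg fun j _ => abs_nonneg _) (Finset.mem_univ i)
    obtain ⟨K, hK⟩ := hbig
    have hO2 : (fun t : ℝ => Real.log (hess φ (x + t • ei a)).det -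
      Real.log (hess φ x).det -
      ((hess φ x)⁻¹ * (hess φ (x + t • ei a) - hess φ x)).trace) =O[𝓝 0] fun t : ℝ => t ^ 2 := by
      refine Asymptotics.IsBigO.of_bound ((n : ℝ) ^ 4 * (1 / c) ^ 2 * K ^ 2) ?_
      filter_upwards [hK] with t ht
      have := LogDet.log_det_ge (hpd x) (hpd (x + t • ei a)) h.c_pos (h.lower x)
        (h.lower _) ht
      rw [Real.norm_eq_abs, norm_pow, Real.norm_eq_abs]
      calc _ ≤ _ := this
        _ = _ := by ring
    have ho : (fun t : ℝ => t ^ 2) =o[𝓝 0] fun t : ℝ => t := by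
      have := Asymptotics.isLittleO_pow_id (𝕜 := ℝ) (n := 2) (by norm_num)
      simpa using this
    rw [hasDerivAt_iff_isLittleO]
    simp only [sub_zero, zero_smul, add_zero, sub_self, Matrix.trace_zero,
      smul_zero, mul_zero]
    exact hO2.trans_isLittleO ho
  have l5 := (l3.add l4).add_const (Real.log (hess φ x).det)
  have l6 : HasDerivAt (fun t : ℝ => Real.log (hess φ (x + t • ei a)).det)
      (∑ i, ∑ j, (hess φ x)⁻¹ i j * pd a (fun y => hess φ y j i) x + 0) 0 := by
    refine l5.congr_of_eventuallyEq (Eventually.of_forall fun t => ?_)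
    simp only [Pi.add_apply]
    ring
  rw [add_zero] at l6
  exact l1.unique l6

theorem pd_Vpsi {φ : E n → ℝ} {c C : ℝ} (h : Nice φ c C) (a : Fin n) (x : E n) :
    pd a (Vpsi φ) x = ∑ i, x i * hess φ x a i - pd a (fun y => Real.log (hess φ y).det) x := by
  have hC2 : ContDiff ℝ 2 φ := h.toReg.C2
  have d1 : Differentiable ℝ (fun y : E n => ∑ i, y i * pd i φ y) := by
    have : ContDiff ℝ (⊤ : ℕ∞) (fun y : E n => ∑ i, y i * pd i φ y) :=
      ContDiff.sum fun i _ => ContDiff.mul (by fun_prop) (contDiff_pd_top h.smooth i)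
    exact this.differentiable (by simp)
  have d2 : Differentiable ℝ φ := hC2.differentiable (by norm_num)
  have d3 : Differentiable ℝ (fun y => Real.log (hess φ y).det) :=
    (contDiff_logdet h).differentiable (by simp)
  have h1 : pd a (Vpsi φ) x = pd a (fun y => (∑ i, y i * pd i φ y) - φ y) x -
      pd a (fun y => Real.log (hess φ y).det) x :=
    pd_sub (f := fun y => (∑ i, y i * pd i φ y) - φ y)
      (g := fun y => Real.log (hess φ y).det) (d1.sub d2) d3 a x
  have h2 : pd a (fun y => (∑ i, y i * pd i φ y) - φ y) x =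
      pd a (fun y => ∑ i, y i * pd i φ y) x - pd a φ x :=
    pd_sub (f := fun y => ∑ i, y i * pd i φ y) (g := φ) d1 d2 a x
  rw [h1, h2, pd_xgrad hC2]
  ring

theorem ell_eq (h : MM ψ V c C M) : (fun y => Real.log (hess ψ y).det) =
    fun y => (∑ i, y i * pd i ψ y) - ψ y - V y := by
  funext y
  have := h.ma y
  linarith

theorem contDiff_ell (hV : ContDiff ℝ 1 V) (h : MM ψ V c C M) :
    ContDiff ℝ 1 (fun y => Real.log (hess ψ y).det) := by
  rw [ell_eq h]
  refine (ContDiff.sub ?_ (h.C2.of_le (by norm_num))).sub hV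
  exact ContDiff.sum fun i _ => ContDiff.mul (by fun_prop) (contDiff_pd h.C2 (by norm_num) i)

theorem pd_ell (hV : ContDiff ℝ 1 V) (h : MM ψ V c C M) (a : Fin n) (x : E n) :
    pd a (fun y => Real.log (hess ψ y).det) x = ∑ i, x i * hess ψ x a i - pd a V x := by
  have d1 : Differentiable ℝ (fun y : E n => ∑ i, y i * pd i ψ y) := by
    have : ContDiff ℝ 1 (fun y : E n => ∑ i, y i * pd i ψ y) :=
      ContDiff.sum fun i _ => ContDiff.mul (by fun_prop) (contDiff_pd h.C2 (by norm_num) i)
    exact this.differentiable (by norm_num)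
  have d2 : Differentiable ℝ ψ := h.C2.differentiable (by norm_num)
  have d3 : Differentiable ℝ V := hV.differentiable (by norm_num)
  have h1 : pd a (fun y => (∑ i, y i * pd i ψ y) - ψ y - V y) x =
      pd a (fun y => (∑ i, y i * pd i ψ y) - ψ y) x - pd a V x :=
    pd_sub (f := fun y => (∑ i, y i * pd i ψ y) - ψ y) (g := V) (d1.sub d2) d3 a x
  have h2 : pd a (fun y => (∑ i, y i * pd i ψ y) - ψ y) x =
      pd a (fun y => ∑ i, y i * pd i ψ y) x - pd a ψ x :=
    pd_sub (f := fun y => ∑ i, y i * pd i ψ y) (g := ψ) d1 d2 a x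
  rw [ell_eq h, h1, h2, pd_xgrad h.C2]
  ring

theorem abs_hess_le_C (h : MM ψ V c C M) (x : E n) (i j : Fin n) : |hess ψ x i j| ≤ C :=
  abs_entry_le (hess_symm h.C2 x)
    (fun v => (mul_nonneg h.c_pos.le (sq_nonneg _)).trans (h.lower x v)) (h.upper x) i j

theorem hess_close (hd : 0 < d) (h : MM ψ V c C M) (x z : E n) (hz : ‖z‖ ≤ d) (i j : Fin n) :
    |hess ψ (x - z) i j - hess (mo d ψ) x i j| ≤ 2 * |M| * d := by
  rw [hess_mo hd h.C2, abs_sub_comm]
  refine mo_close hd (continuous_hess h.C2 i j) x fun w hw => ?_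
  refine (h.lip i j _ _).trans ?_
  have h1 : ‖x - w - (x - z)‖ ≤ 2 * d := by
    have : x - w - (x - z) = z - w := by abel
    rw [this]
    linarith [norm_sub_le z w]
  calc M * ‖x - w - (x - z)‖ ≤ |M| * ‖x - w - (x - z)‖ :=
        mul_le_mul_of_nonneg_right (le_abs_self M) (norm_nonneg _)
    _ ≤ |M| * (2 * d) := mul_le_mul_of_nonneg_left h1 (abs_nonneg _)
    _ = _ := by ring

/-- the main error term -/
theorem err_main (hd : 0 < d) (hV : ContDiff ℝ 1 V) (h : MM ψ V c C M) (a : Fin n) (x : E n) :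
    |mo d (pd a (fun y => Real.log (hess ψ y).det)) x -
      pd a (fun y => Real.log (hess (mo d ψ) y).det) x| ≤
      4 * (n : ℝ) ^ 4 * (1 / c) ^ 2 * M ^ 2 * (∫ z : E n, ‖fderiv ℝ (eta : E n → ℝ) z‖) * d := by
  have hN := nice_mo hd h
  set S0 := hess (mo d ψ) x with hS0
  have hell := contDiff_ell hV h
  have hS0pd : S0.PosDef := Loc.posDef_of_qf (hess_symm hN.toReg.C2 x) h.c_pos (hN.lower x)
  -- both terms as integrals against the derivative of the kernel
  have e1 : mo d (pd a (fun y => Real.log (hess ψ y).det)) x =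
      ∫ z, fderiv ℝ (ker d) z (ei a) * Real.log (hess ψ (x - z)).det := by
    rw [← pd_mo hd hell a x, pd_mo_ker hd hell.continuous]
  have e2 : ∀ i j, pd a (fun y => hess (mo d ψ) y j i) x =
      ∫ z, fderiv ℝ (ker d) z (ei a) * hess ψ (x - z) j i := by
    intro i j
    have : (fun y => hess (mo d ψ) y j i) = mo d (fun y => hess ψ y j i) :=
      funext fun y => hess_mo hd h.C2 j i y
    rw [this, pd_mo_ker hd (continuous_hess h.C2 j i)]
  have e3 : pd a (fun y => Real.log (hess (mo d ψ) y).det) x =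
      ∫ z, fderiv ℝ (ker d) z (ei a) * ∑ i, ∑ j, S0⁻¹ i j * hess ψ (x - z) j i := by
    rw [pd_logdet hN a x]
    simp_rw [e2, Finset.mul_sum]
    rw [integral_finsetSum]
    · refine Finset.sum_congr rfl fun i _ => ?_
      rw [integral_finsetSum]
      · refine Finset.sum_congr rfl fun j _ => ?_
        rw [← integral_const_mul]
        congr 1
        funext z
        ring
      · intro j _
        exact dker_integrable hd (f := fun y => S0⁻¹ i j * hess ψ y j i)
          (continuous_const.mul (continuous_hess h.C2 j i)) a x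
    · intro i _
      refine integrable_finsetSum _ fun j _ => ?_
      exact dker_integrable hd (f := fun y => S0⁻¹ i j * hess ψ y j i)
          (continuous_const.mul (continuous_hess h.C2 j i)) a x
  set g : E n → ℝ := fun y => Real.log (hess ψ y).det - ∑ i, ∑ j, S0⁻¹ i j * hess ψ y j i with hg
  have hgc : Continuous g := by
    refine hell.continuous.sub ?_
    exact continuous_finsetSum _ fun i _ => continuous_finsetSum _ fun j _ =>
      continuous_const.mul (continuous_hess h.C2 j i)
  have e4 : mo d (pd a (fun y => Real.log (hess ψ y).det)) x -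
      pd a (fun y => Real.log (hess (mo d ψ) y).det) x =
      ∫ z, fderiv ℝ (ker d) z (ei a) * g (x - z) := by
    rw [e1, e3, ← integral_sub]
    · congr 1
      funext z
      simp only [hg]
      ring
    · exact dker_integrable hd hell.continuous a x
    · exact dker_integrable hd (f := fun y => ∑ i, ∑ j, S0⁻¹ i j * hess ψ y j i)
        (continuous_finsetSum _ fun i _ => continuous_finsetSum _ fun j _ =>
          continuous_const.mul (continuous_hess h.C2 j i)) a x
  rw [e4]
  have e5 := dker_close hd hgc (a := Real.log S0.det - ∑ i, ∑ j, S0⁻¹ i j * S0 j i)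
    (K := (n : ℝ) ^ 4 * (1 / c) ^ 2 * (2 * |M| * d) ^ 2) a x (fun z hz => ?_)
  · refine e5.trans (le_of_eq ?_)
    have hd' : d ≠ 0 := hd.ne'
    rw [mul_pow, mul_pow, sq_abs]
    field_simp
    ring
  · have h1 := LogDet.log_det_ge hS0pd
      (Loc.posDef_of_qf (hess_symm h.C2 (x - z)) h.c_pos (h.lower (x - z))) h.c_pos
      (hN.lower x) (h.lower (x - z)) (hess_close hd h x z hz)
    have h2 : g (x - z) - (Real.log S0.det - ∑ i, ∑ j, S0⁻¹ i j * S0 j i) =
        Real.log (hess ψ (x - z)).det - Real.log S0.det -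
          (S0⁻¹ * (hess ψ (x - z) - S0)).trace := by
      simp only [hg, Matrix.trace, Matrix.diag_apply, Matrix.mul_apply, Matrix.sub_apply, mul_sub,
        Finset.sum_sub_distrib]
      ring
    rw [h2]
    exact h1

theorem grad_close {c0 C0 : ℝ} (hV : Reg V c0 C0) (h : MM ψ V c C M) :
    ∃ K : ℝ, 0 ≤ K ∧ ∀ d : ℝ, 0 < d → ∀ (a : Fin n) (x : E n),
      |pd a (Vpsi (mo d ψ)) x - pd a V x| ≤ K * d := by
  obtain ⟨B2, hB2⟩ := hV.bdd 2 le_rfl
  have hB20 : 0 ≤ B2 := (norm_nonneg _).trans (hB2 0)
  have hV1 : ContDiff ℝ 1 V := hV.smooth.of_le (by norm_cast)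
  set K1 := 4 * (n : ℝ) ^ 4 * (1 / c) ^ 2 * M ^ 2 * (∫ z : E n, ‖fderiv ℝ (eta : E n → ℝ) z‖)
    with hK1
  have hK10 : 0 ≤ K1 := by
    have : 0 ≤ ∫ z : E n, ‖fderiv ℝ (eta : E n → ℝ) z‖ := integral_nonneg fun z => norm_nonneg _
    positivity
  refine ⟨(n : ℝ) * |C| + B2 + K1, by positivity, fun d hd a x => ?_⟩
  have hN := nice_mo hd h
  rw [pd_Vpsi hN]
  have hpV : Continuous (pd a V) := (contDiff_pd_top hV.smooth a).continuous
  have hc : ∀ i : Fin n, Continuous (fun y : E n => y i) := fun i => by fun_prop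
  -- mollified derivative of ell
  have e1 : mo d (pd a (fun y => Real.log (hess ψ y).det)) x =
      ∑ i, mo d (fun y => y i * hess ψ y a i) x - mo d (pd a V) x := by
    have : pd a (fun y => Real.log (hess ψ y).det) =
        fun y => (fun y => ∑ i, y i * hess ψ y a i) y - pd a V y :=
      funext fun y => pd_ell hV1 h a y
    have h1 : mo d (fun y => (fun y => ∑ i, y i * hess ψ y a i) y - pd a V y) x =
        mo d (fun y => ∑ i, y i * hess ψ y a i) x - mo d (pd a V) x :=
      mo_sub hd (f := fun y => ∑ i, y i * hess ψ y a i) (g := pd a V)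
        (continuous_finsetSum _ fun i _ => (hc i).mul (continuous_hess h.C2 a i)) hpV x
    have h2 : mo d (fun y => ∑ i, y i * hess ψ y a i) x =
        ∑ i, mo d (fun y => y i * hess ψ y a i) x :=
      mo_sum hd Finset.univ (f := fun i y => y i * hess ψ y a i)
        (fun i _ => (hc i).mul (continuous_hess h.C2 a i)) x
    rw [this, h1, h2]
  have e2 : ∀ i : Fin n, |x i * hess (mo d ψ) x a i - mo d (fun y => y i * hess ψ y a i) x| ≤
      |C| * d := by
    intro i
    have e3 : x i * hess (mo d ψ) x a i - mo d (fun y => y i * hess ψ y a i) x =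
        mo d (fun y => x i * hess ψ y a i - y i * hess ψ y a i) x := by
      have h1 := mo_sub hd (f := fun y => x i * hess ψ y a i) (g := fun y => y i * hess ψ y a i)
        (continuous_const.mul (continuous_hess h.C2 a i))
        ((hc i).mul (continuous_hess h.C2 a i)) x
      rw [h1, mo_const_mul, hess_mo hd h.C2]
    rw [e3]
    have e4 := mo_close hd (f := fun y => x i * hess ψ y a i - y i * hess ψ y a i)
      ((continuous_const.mul (continuous_hess h.C2 a i)).sub
        ((hc i).mul (continuous_hess h.C2 a i))) (a := 0) (K := |C| * d) x (fun z hz => ?_)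
    · rwa [sub_zero] at e4
    · have e5 : x i * hess ψ (x - z) a i - (x - z) i * hess ψ (x - z) a i - 0 =
          z i * hess ψ (x - z) a i := by
        simp only [PiLp.sub_apply]
        ring
      rw [e5, abs_mul, mul_comm]
      exact mul_le_mul ((abs_hess_le_C h _ a i).trans (le_abs_self C))
        ((abs_coord_le z i).trans hz) (abs_nonneg _) (abs_nonneg _)
  have e6 : |mo d (pd a V) x - pd a V x| ≤ B2 * d := by
    refine mo_close hd hpV x fun z hz => ?_
    have hdV : Differentiable ℝ (fderiv ℝ V) :=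
      (hV.C2.fderiv_right (m := 1) (by norm_num)).differentiable (by norm_num)
    have h2 := (convex_univ : Convex ℝ (Set.univ : Set (E n))).norm_image_sub_le_of_norm_fderiv_le
      (f := fderiv ℝ V) (C := B2) (x := x) (y := x - z) (fun z _ => hdV z)
      (fun z _ => norm_fderiv_fderiv_le hB2 z) (Set.mem_univ _) (Set.mem_univ _)
    have h3 : |pd a V (x - z) - pd a V x| ≤ ‖fderiv ℝ V (x - z) - fderiv ℝ V x‖ := by
      have := (fderiv ℝ V (x - z) - fderiv ℝ V x).le_opNorm (ei a)
      rw [norm_ei, mul_one] at this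
      exact this
    refine h3.trans (h2.trans ?_)
    have : x - z - x = -z := by abel
    rw [this, norm_neg]
    exact mul_le_mul_of_nonneg_left hz hB20
  have e7 := err_main hd hV1 h a x
  rw [← hK1] at e7
  have e8 : ∑ i, x i * hess (mo d ψ) x a i -
      pd a (fun y => Real.log (hess (mo d ψ) y).det) x - pd a V x =
      ∑ i, (x i * hess (mo d ψ) x a i - mo d (fun y => y i * hess ψ y a i) x) +
        (mo d (pd a V) x - pd a V x) +
        (mo d (pd a (fun y => Real.log (hess ψ y).det)) x -
          pd a (fun y => Real.log (hess (mo d ψ) y).det) x) := by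
    rw [e1, Finset.sum_sub_distrib]
    ring
  rw [e8]
  have e9 : |∑ i, (x i * hess (mo d ψ) x a i - mo d (fun y => y i * hess ψ y a i) x)| ≤
      (n : ℝ) * |C| * d := by
    refine (Finset.abs_sum_le_sum_abs _ _).trans ((Finset.sum_le_sum fun i _ => e2 i).trans ?_)
    simp only [Finset.sum_const, Finset.card_univ, Fintype.card_fin, nsmul_eq_mul]
    linarith
  calc _ ≤ |∑ i, (x i * hess (mo d ψ) x a i - mo d (fun y => y i * hess ψ y a i) x)| +
        |mo d (pd a V) x - pd a V x| + |mo d (pd a (fun y => Real.log (hess ψ y).det)) x -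
          pd a (fun y => Real.log (hess (mo d ψ) y).det) x| := abs_add_three _ _ _
    _ ≤ (n : ℝ) * |C| * d + B2 * d + K1 * d := by linarith
    _ = _ := by ring

end Vale.Agent.P227.M.GAL.MollA
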