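import Vale.Agent.P227.M.GAL.MollB

/-! # (TG-A), final form -/

open MeasureTheory Filter Topology Set
open scoped ContDiff

namespace Vale.Agent.P227.M.GAL.MollA

open Mo

variable {n : ℕ} {d : ℝ} {ψ V : E n → ℝ} {c C M : ℝ}

theorem Vpsi_even {φ : E n → ℝ} (h : ∀ x, φ (-x) = φ x) (x : E n) : Vpsi φ (-x) = Vpsi φ x := by
  unfold Vpsi
  rw [h x, hess_even h x]
  congr 2
  refine Finset.sum_congr rfl fun i _ => ?_
  rw [pd_even h]
  simp

theorem lip_of_pd {f : E n → ℝ} (hf : Differentiable ℝ f) {K : ℝ}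
    (h : ∀ a x, |pd a f x| ≤ K) (x : E n) : |f x - f 0| ≤ (n : ℝ) * K * ‖x‖ := by
  have h1 : ∀ y, ‖fderiv ℝ f y‖ ≤ (n : ℝ) * K := by
    intro y
    rcases Nat.eq_zero_or_pos n with h0 | h0
    · subst h0
      have : fderiv ℝ f y = 0 := by
        ext v
        have : v = 0 := Subsingleton.elim _ _
        rw [this]
        simp
      rw [this]
      simp
    have hK : 0 ≤ K := (abs_nonneg _).trans (h ⟨0, h0⟩ 0)
    refine ContinuousLinearMap.opNorm_le_bound _ (by positivity) fun v => ?_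
    rw [fderiv_eq_sum, Real.norm_eq_abs]
    calc |∑ i, v i * pd i f y| ≤ ∑ i, |v i * pd i f y| := Finset.abs_sum_le_sum_abs _ _
      _ ≤ ∑ _i : Fin n, ‖v‖ * K := by
          refine Finset.sum_le_sum fun i _ => ?_
          rw [abs_mul]
          exact mul_le_mul (abs_coord_le v i) (h i y) (abs_nonneg _) (norm_nonneg _)
      _ = (n : ℝ) * K * ‖v‖ := by
          simp only [Finset.sum_const, Finset.card_univ, Fintype.card_fin, nsmul_eq_mul]
          ring
  have h2 := (convex_univ : Convex ℝ (Set.univ : Set (E n))).norm_image_sub_le_of_norm_fderiv_le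
    (f := f) (C := (n : ℝ) * K) (x := 0) (y := x) (fun z _ => hf z)
    (fun z _ => h1 z) (Set.mem_univ _) (Set.mem_univ _)
  rw [sub_zero, Real.norm_eq_abs] at h2
  exact h2

theorem logdet_close (hd : 0 < d) (hd1 : d ≤ 1) (h : MM ψ V c C M) (x : E n) :
    |Real.log (hess (mo d ψ) x).det - Real.log (hess ψ x).det| ≤
      ((n : ℝ) ^ 2 * (1 / c) * (2 * |M|) + (n : ℝ) ^ 4 * (1 / c) ^ 2 * (2 * |M|) ^ 2) * d := by
  have hN := nice_mo hd h
  have hA : (hess ψ x).PosDef := Loc.posDef_of_qf (hess_symm h.C2 x) h.c_pos (h.lower x)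
  have hB : (hess (mo d ψ) x).PosDef :=
    Loc.posDef_of_qf (hess_symm hN.toReg.C2 x) h.c_pos (hN.lower x)
  have hcl : ∀ i j, |hess (mo d ψ) x i j - hess ψ x i j| ≤ 2 * |M| * d := by
    intro i j
    have := hess_close hd h x 0 (by simpa using hd.le) i j
    rw [sub_zero, abs_sub_comm] at this
    exact this
  have h1 := LogDet.log_det_ge hA hB h.c_pos (h.lower x) (hN.lower x) hcl
  have hc : (0 : ℝ) < 1 / c := by have := h.c_pos; positivity
  have h2 : |((hess ψ x)⁻¹ * (hess (mo d ψ) x - hess ψ x)).trace| ≤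
      (n : ℝ) ^ 2 * (1 / c) * (2 * |M|) * d := by
    simp only [Matrix.trace, Matrix.diag_apply, Matrix.mul_apply, Matrix.sub_apply]
    calc |∑ i, ∑ j, (hess ψ x)⁻¹ i j * (hess (mo d ψ) x j i - hess ψ x j i)|
        ≤ ∑ i, ∑ j, |(hess ψ x)⁻¹ i j * (hess (mo d ψ) x j i - hess ψ x j i)| :=
          (Finset.abs_sum_le_sum_abs _ _).trans
            (Finset.sum_le_sum fun b _ => Finset.abs_sum_le_sum_abs _ _)
      _ ≤ ∑ _i : Fin n, ∑ _j : Fin n, (1 / c) * (2 * |M| * d) := by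
          refine Finset.sum_le_sum fun i _ => Finset.sum_le_sum fun j _ => ?_
          rw [abs_mul]
          exact mul_le_mul (Loc.abs_inv_le hA h.c_pos (h.lower x) i j) (hcl j i) (abs_nonneg _)
            hc.le
      _ = _ := by
          simp only [Finset.sum_const, Finset.card_univ, Fintype.card_fin, nsmul_eq_mul]
          ring
  have h3 : (n : ℝ) ^ 4 * (1 / c) ^ 2 * (2 * |M| * d) ^ 2 ≤
      (n : ℝ) ^ 4 * (1 / c) ^ 2 * (2 * |M|) ^ 2 * d := by
    have : d ^ 2 ≤ d := by nlinarith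
    calc (n : ℝ) ^ 4 * (1 / c) ^ 2 * (2 * |M| * d) ^ 2
        = (n : ℝ) ^ 4 * (1 / c) ^ 2 * (2 * |M|) ^ 2 * d ^ 2 := by ring
      _ ≤ _ := mul_le_mul_of_nonneg_left this (by positivity)
  have h4 : Real.log (hess (mo d ψ) x).det - Real.log (hess ψ x).det =
      (Real.log (hess (mo d ψ) x).det - Real.log (hess ψ x).det -
        ((hess ψ x)⁻¹ * (hess (mo d ψ) x - hess ψ x)).trace) +
        ((hess ψ x)⁻¹ * (hess (mo d ψ) x - hess ψ x)).trace := by ring
  rw [h4]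
  calc _ ≤ _ + _ := abs_add_le _ _
    _ ≤ (n : ℝ) ^ 4 * (1 / c) ^ 2 * (2 * |M| * d) ^ 2 + (n : ℝ) ^ 2 * (1 / c) * (2 * |M|) * d :=
        add_le_add h1 h2
    _ ≤ _ := by linarith

theorem psi_close (h : MM ψ V c C M) : ∃ L : ℝ, 0 ≤ L ∧ ∀ d : ℝ, 0 < d → d ≤ 1 →
    |mo d ψ 0 - ψ 0| ≤ L * d := by
  obtain ⟨L, hL⟩ := (isCompact_closedBall (0 : E n) 1).exists_bound_of_continuousOn
    (h.C2.continuous_fderiv (by norm_num)).continuousOn
  have hL0 : 0 ≤ L := (norm_nonneg _).trans (hL 0 (by simp))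
  refine ⟨L, hL0, fun d hd hd1 => mo_close hd h.C2.continuous 0 fun z hz => ?_⟩
  have h2 := (convex_closedBall (0 : E n) 1).norm_image_sub_le_of_norm_fderiv_le
    (f := ψ) (C := L) (x := 0) (y := 0 - z)
    (fun y _ => (h.C2.differentiable (by norm_num)) y)
    hL (by simp) (by simpa using hz.trans hd1)
  rw [Real.norm_eq_abs] at h2
  refine h2.trans ?_
  have : (0 : E n) - z - 0 = -z := by abel
  rw [this, norm_neg]
  exact mul_le_mul_of_nonneg_left hz hL0

/-- (TG-A): smooth approximations `φ` of `ψ` with the same convexity constants, such that the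
potentials `Vpsi φ` are close to `V` together with their gradients, uniformly. -/
theorem tgA {c0 C0 : ℝ} (hV : Reg V c0 C0) (h : MM ψ V c C M) :
    ∃ K A : ℝ, 0 ≤ K ∧ ∀ d : ℝ, 0 < d → d ≤ 1 → ∃ φ : E n → ℝ,
      Nice φ c C ∧ ContDiff ℝ (⊤ : ℕ∞) (Vpsi φ) ∧ (∀ x, Vpsi φ (-x) = Vpsi φ x) ∧
      (∀ x i j, |hess φ x i j - hess ψ x i j| ≤ K * d) ∧
      (∀ a x, |pd a (Vpsi φ) x - pd a V x| ≤ K * d) ∧
      (∀ x, |Vpsi φ x - V x| ≤ K * d * (1 + ‖x‖)) ∧
      (∀ x, c0 / 8 * ‖x‖ ^ 2 - A ≤ Vpsi φ x) := by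
  obtain ⟨K1, hK1, hgrad⟩ := grad_close hV h
  obtain ⟨L, hL, hpsi⟩ := psi_close h
  obtain ⟨A0, hA0⟩ := hV.quad_lower
  have hcp := h.c_pos
  have hc0 := hV.c_pos
  set K2 := (n : ℝ) ^ 2 * (1 / c) * (2 * |M|) + (n : ℝ) ^ 4 * (1 / c) ^ 2 * (2 * |M|) ^ 2 with hK2
  have hK20 : 0 ≤ K2 := by positivity
  set K := K1 + (n : ℝ) * K1 + L + K2 + 2 * |M| with hK
  have hK0 : 0 ≤ K := by positivity
  have hnK : 0 ≤ (n : ℝ) * K1 := by positivity
  have hM0 := abs_nonneg M
  refine ⟨K, A0 + K + 2 * K ^ 2 / c0, hK0, fun d hd hd1 => ?_⟩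
  have hN := nice_mo hd h
  have hclose : ∀ x, |Vpsi (mo d ψ) x - V x| ≤ K * d * (1 + ‖x‖) := by
    intro x
    have hdf : Differentiable ℝ (Vpsi (mo d ψ)) := (contDiff_Vpsi hN).differentiable (by simp)
    have hdV : Differentiable ℝ V := hV.smooth.differentiable (by simp)
    have h1 := lip_of_pd (f := fun y => Vpsi (mo d ψ) y - V y) (hdf.sub hdV) (K := K1 * d)
      (fun a x => by rw [pd_sub hdf hdV]; exact hgrad d hd a x) x
    have h2 : |Vpsi (mo d ψ) 0 - V 0| ≤ (L + K2) * d := by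
      have e : Vpsi (mo d ψ) 0 - V 0 = -(mo d ψ 0 - ψ 0) -
          (Real.log (hess (mo d ψ) 0).det - Real.log (hess ψ 0).det) := by
        rw [h.ma 0]
        unfold Vpsi
        simp only [PiLp.zero_apply, zero_mul, Finset.sum_const_zero]
        ring
      rw [e]
      calc _ ≤ |-(mo d ψ 0 - ψ 0)| +
            |Real.log (hess (mo d ψ) 0).det - Real.log (hess ψ 0).det| := abs_sub _ _
        _ ≤ L * d + K2 * d := by
            rw [abs_neg]
            exact add_le_add (hpsi d hd hd1) (logdet_close hd hd1 h 0)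
        _ = _ := by ring
    have h3 : Vpsi (mo d ψ) x - V x = ((fun y => Vpsi (mo d ψ) y - V y) x -
        (fun y => Vpsi (mo d ψ) y - V y) 0) + (Vpsi (mo d ψ) 0 - V 0) := by
      simp only []
      ring
    rw [h3]
    calc _ ≤ _ + _ := abs_add_le _ _
      _ ≤ (n : ℝ) * (K1 * d) * ‖x‖ + (L + K2) * d := add_le_add h1 h2
      _ ≤ K * d * (1 + ‖x‖) := by
          have h4 : 0 ≤ d * ‖x‖ := by positivity
          have h5 : (n : ℝ) * K1 ≤ K := by rw [hK]; linarith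
          have h6 : L + K2 ≤ K := by rw [hK]; linarith
          nlinarith [mul_le_mul_of_nonneg_right h5 h4, mul_le_mul_of_nonneg_right h6 hd.le]
  refine ⟨mo d ψ, hN, contDiff_Vpsi hN, fun x => Vpsi_even hN.even x, ?_, ?_, hclose, ?_⟩
  · intro x i j
    have h1 := hess_close hd h x 0 (by simpa using hd.le) i j
    rw [sub_zero, abs_sub_comm] at h1
    refine h1.trans (mul_le_mul_of_nonneg_right ?_ hd.le)
    rw [hK]
    linarith
  · intro a x
    refine (hgrad d hd a x).trans (mul_le_mul_of_nonneg_right ?_ hd.le)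
    rw [hK]
    linarith
  · intro x
    have h1 := hA0 x
    have h2 := (abs_le.1 (hclose x)).1
    have h3 : K * d * (1 + ‖x‖) ≤ K * (1 + ‖x‖) := by
      have : 0 ≤ K * (1 + ‖x‖) := by positivity
      calc K * d * (1 + ‖x‖) = d * (K * (1 + ‖x‖)) := by ring
        _ ≤ 1 * (K * (1 + ‖x‖)) := mul_le_mul_of_nonneg_right hd1 this
        _ = _ := by ring
    have h4 : K * ‖x‖ ≤ c0 / 8 * ‖x‖ ^ 2 + 2 * K ^ 2 / c0 := by
      have h5 : 0 ≤ (c0 / 8) * (‖x‖ - 4 * K / c0) ^ 2 := by positivity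
      have h6 : (c0 / 8) * (‖x‖ - 4 * K / c0) ^ 2 =
          c0 / 8 * ‖x‖ ^ 2 - K * ‖x‖ + 2 * K ^ 2 / c0 := by
        field_simp
        ring
      linarith
    linarith

end Vale.Agent.P227.M.GAL.MollA
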