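import Vale.Agent.P227.M.GAL.Inst

/-! # P227/M/GAL: polynomials are dense in `L²(e^{-V})` -/

namespace Vale.Agent.P227.M.GAL

open MeasureTheory Function Finset Filter Topology
open Vale.Agent.P227.M.IDI

variable {n : ℕ}

theorem eq_zero_of_char {μ : Measure (EuclideanSpace ℝ (Fin n))} [IsFiniteMeasure μ]
    {g : EuclideanSpace ℝ (Fin n) → ℝ} (hg : Integrable g μ)
    (h : ∀ t : EuclideanSpace ℝ (Fin n), ∫ x, (g x : ℂ) * Complex.exp (inner ℝ x t * Complex.I) ∂μ = 0) :
    g =ᵐ[μ] 0 := by
  have hgn : Integrable (fun x => -g x) μ := hg.neg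
  have m1 : AEMeasurable (fun x => ENNReal.ofReal (g x)) μ := hg.1.aemeasurable.ennreal_ofReal
  have m2 : AEMeasurable (fun x => ENNReal.ofReal (-g x)) μ := hgn.1.aemeasurable.ennreal_ofReal
  have f1 : IsFiniteMeasure (μ.withDensity fun x => ENNReal.ofReal (g x)) :=
    isFiniteMeasure_withDensity_ofReal hg.2
  have f2 : IsFiniteMeasure (μ.withDensity fun x => ENNReal.ofReal (-g x)) :=
    isFiniteMeasure_withDensity_ofReal hgn.2
  have hbd : ∀ t x : EuclideanSpace ℝ (Fin n), ‖Complex.exp (inner ℝ x t * Complex.I)‖ = 1 := by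
    intro t x
    have : (inner ℝ x t * Complex.I : ℂ) = ((inner ℝ x t : ℝ) : ℂ) * Complex.I := rfl
    rw [this, Complex.norm_exp_ofReal_mul_I]
  have hmeas : ∀ t : EuclideanSpace ℝ (Fin n), Continuous
      (fun x : EuclideanSpace ℝ (Fin n) => Complex.exp (inner ℝ x t * Complex.I)) := by
    intro t; fun_prop
  have key : (μ.withDensity fun x => ENNReal.ofReal (g x)) = μ.withDensity fun x => ENNReal.ofReal (-g x) := by
    refine Measure.ext_of_charFun (funext fun t => ?_)
    rw [charFun_apply, charFun_apply, integral_withDensity_eq_integral_toReal_smul₀ m1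
      (Eventually.of_forall fun x => ENNReal.ofReal_lt_top),
      integral_withDensity_eq_integral_toReal_smul₀ m2 (Eventually.of_forall fun x => ENNReal.ofReal_lt_top)]
    have i1 : Integrable (fun x => (ENNReal.ofReal (g x)).toReal • Complex.exp (inner ℝ x t * Complex.I)) μ := by
      have hp : Integrable (fun x => (ENNReal.ofReal (g x)).toReal) μ := by
        refine hg.pos_part.congr (Eventually.of_forall fun x => ?_)
        simp [ENNReal.toReal_ofReal']
      refine hp.smul_bdd 1 (hmeas t).aestronglyMeasurable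
        (Eventually.of_forall fun x => (hbd t x).le)
    have i2 : Integrable (fun x => (ENNReal.ofReal (-g x)).toReal • Complex.exp (inner ℝ x t * Complex.I)) μ := by
      have hp : Integrable (fun x => (ENNReal.ofReal (-g x)).toReal) μ := by
        refine hgn.pos_part.congr (Eventually.of_forall fun x => ?_)
        simp [ENNReal.toReal_ofReal']
      refine hp.smul_bdd 1 (hmeas t).aestronglyMeasurable
        (Eventually.of_forall fun x => (hbd t x).le)
    rw [← sub_eq_zero, ← integral_sub i1 i2, ← h t]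
    congr 1
    funext x
    rw [← sub_smul, Complex.real_smul]
    congr 2
    rw [ENNReal.toReal_ofReal', ENNReal.toReal_ofReal']
    rcases le_total 0 (g x) with hx | hx
    · rw [max_eq_left hx, max_eq_right (by linarith)]; ring
    · rw [max_eq_right hx, max_eq_left (by linarith)]; ring
  have h2 := (withDensity_eq_iff m1 m2 (by
    have := f1.measure_univ_lt_top
    rw [withDensity_apply _ MeasurableSet.univ, setLIntegral_univ] at this
    exact this.ne)).mp key
  filter_upwards [h2] with x hx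
  show g x = 0
  rcases le_total 0 (g x) with h0 | h0
  · rw [ENNReal.ofReal_of_nonpos (show -g x ≤ 0 by linarith), ENNReal.ofReal_eq_zero] at hx
    exact le_antisymm hx h0
  · rw [ENNReal.ofReal_of_nonpos h0, eq_comm, ENNReal.ofReal_eq_zero] at hx
    exact le_antisymm h0 (by linarith)

/-- the weighted measure -/
noncomputable def gm (Q : Dat n) : Measure (EuclideanSpace ℝ (Fin n)) :=
  volume.withDensity (fun x => ENNReal.ofReal (Real.exp (-Q.V.1 x)))

theorem gm_meas (Q : Dat n) : Measurable (fun x => ENNReal.ofReal (Real.exp (-Q.V.1 x))) := by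
  have : Continuous Q.V.1 := (ta_cd Q.V).continuous
  exact (Real.continuous_exp.comp this.neg).measurable.ennreal_ofReal

theorem gm_integral (Q : Dat n) (f : EuclideanSpace ℝ (Fin n) → ℝ) :
    ∫ x, f x ∂(gm Q) = ∫ x, f x * Real.exp (-Q.V.1 x) := by
  rw [gm, integral_withDensity_eq_integral_toReal_smul₀ (gm_meas Q).aemeasurable
    (Eventually.of_forall fun x => ENNReal.ofReal_lt_top)]
  congr 1; funext x
  rw [ENNReal.toReal_ofReal (Real.exp_pos _).le, smul_eq_mul, mul_comm]

theorem gm_integrable (Q : Dat n) {f : EuclideanSpace ℝ (Fin n) → ℝ} :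
    Integrable f (gm Q) ↔ Integrable (fun x => f x * Real.exp (-Q.V.1 x)) := by
  rw [gm, integrable_withDensity_iff (gm_meas Q) (Eventually.of_forall fun x => ENNReal.ofReal_lt_top)]
  simp only [ENNReal.toReal_ofReal (Real.exp_pos _).le]

instance (Q : Dat n) : IsFiniteMeasure (gm Q) := by
  have h : Integrable (fun x => Real.exp (-Q.V.1 x)) := by
    have := Q.integrable_mul 1
    refine this.congr (Eventually.of_forall fun x => ?_)
    show (1 : ℝ) * _ = _
    rw [one_mul]
  exact isFiniteMeasure_withDensity_ofReal h.2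

theorem memLp_ta (Q : Dat n) (f : TA n) : MemLp f.1 2 (gm Q) := by
  rw [memLp_two_iff_integrable_sq (ta_cd f).continuous.aestronglyMeasurable, gm_integrable]
  refine (Q.integrable_mul (f * f)).congr (Eventually.of_forall fun x => ?_)
  show (f.1 x * f.1 x) * _ = _
  ring

/-- embedding in `L²` -/
noncomputable def jj (Q : Dat n) : TA n →ₗ[ℝ] Lp ℝ 2 (gm Q) where
  toFun f := (memLp_ta Q f).toLp f.1
  map_add' f g := by
    rw [← MemLp.toLp_add]; rfl
  map_smul' r f := by
    rw [RingHom.id_apply, ← MemLp.toLp_const_smul]; rfl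

theorem inner_jj_left (Q : Dat n) (f : TA n) (g : Lp ℝ 2 (gm Q)) :
    inner ℝ (jj Q f) g = ∫ x, f.1 x * g x ∂(gm Q) := by
  rw [L2.inner_def]
  refine integral_congr_ae ?_
  filter_upwards [(memLp_ta Q f).coeFn_toLp] with x hx
  have : (jj Q f) x = f.1 x := hx
  rw [this]
  simp [mul_comm]

theorem inner_jj (Q : Dat n) (f g : TA n) : inner ℝ (jj Q f) (jj Q g) = Q.Ev (f * g) := by
  rw [inner_jj_left, Dat.Ev_apply, ← gm_integral]
  refine integral_congr_ae ?_
  filter_upwards [(memLp_ta Q g).coeFn_toLp] with x hx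
  have : (jj Q g) x = g.1 x := hx
  rw [this]; rfl

/-- exponential integrability -/
theorem memLp_exp (Q : Dat n) (m : ℝ) : MemLp (fun x : EuclideanSpace ℝ (Fin n) => Real.exp (m * ‖x‖)) 2 (gm Q) := by
  have hcont : Continuous (fun x : EuclideanSpace ℝ (Fin n) => Real.exp (m * ‖x‖)) := by fun_prop
  rw [memLp_two_iff_integrable_sq hcont.aestronglyMeasurable, gm_integrable]
  obtain ⟨K, hK⟩ := Q.V_lower
  have hc := Q.hc
  have hg : Integrable (fun x : EuclideanSpace ℝ (Fin n) =>
      Real.exp (K + 4 * m ^ 2 / Q.c) * Real.exp (-(Q.c / 4) * ‖x‖ ^ 2)) := by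
    have := GaussianFourier.integrable_cexp_neg_mul_sq_norm_add (V := EuclideanSpace ℝ (Fin n))
      (b := ((Q.c / 4 : ℝ) : ℂ)) (by simpa using by positivity) 0 0
    refine Integrable.const_mul ?_ _
    refine this.norm.congr (Eventually.of_forall fun x => ?_)
    simp only [zero_mul, add_zero, Complex.norm_exp]
    congr 1
    rw [← Complex.ofReal_neg, ← Complex.ofReal_pow, ← Complex.ofReal_mul, Complex.ofReal_re]
  have hVc : Continuous Q.V.1 := (ta_cd Q.V).continuous
  refine hg.mono' (by fun_prop) (Eventually.of_forall fun x => ?_)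
  rw [Real.norm_of_nonneg (by positivity), ← Real.exp_nat_mul, ← Real.exp_add, ← Real.exp_add]
  apply Real.exp_le_exp.mpr
  have h1 := hK x
  have h2 : 2 * m * ‖x‖ ≤ Q.c / 4 * ‖x‖ ^ 2 + 4 * m ^ 2 / Q.c := by
    have h3 : 0 ≤ (Q.c / 2 * ‖x‖ - 2 * m) ^ 2 := sq_nonneg _
    have h4 : 4 * m ^ 2 / Q.c * Q.c = 4 * m ^ 2 := by field_simp
    have h5 : 0 ≤ 4 * m ^ 2 / Q.c := by positivity
    have h6 : 2 * m * ‖x‖ * Q.c ≤ (Q.c / 4 * ‖x‖ ^ 2 + 4 * m ^ 2 / Q.c) * Q.c := by nlinarith
    exact le_of_mul_le_mul_right h6 hc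
  push_cast
  linarith

/-- linear forms -/
noncomputable def linT (t : EuclideanSpace ℝ (Fin n)) : TA n := ∑ i, t i • X i

theorem linT_apply (t x : EuclideanSpace ℝ (Fin n)) : (linT t).1 x = inner ℝ x t := by
  have : (linT t).1 x = ev x (linT t) := rfl
  rw [this, linT, map_sum]
  simp only [map_smul, ev_apply, smul_eq_mul]
  rw [PiLp.inner_apply]
  refine sum_congr rfl (fun i _ => ?_)
  show t i * x i = _
  simp

theorem linT_mul_mem (t : EuclideanSpace ℝ (Fin n)) (d : ℕ) {f : TA n} (hf : f ∈ Pol n d) :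
    linT t * f ∈ Pol n (d + 1) := by
  rw [linT, sum_mul]
  refine Submodule.sum_mem _ (fun i _ => ?_)
  rw [smul_mul_assoc]
  exact Submodule.smul_mem _ _ (X_mul_mem i d hf)

theorem linT_pow_mem (t : EuclideanSpace ℝ (Fin n)) (k : ℕ) : linT t ^ k ∈ Pol n k := by
  induction k with
  | zero => rw [pow_zero]; exact Submodule.mem_span_singleton_self _
  | succ k ih => rw [pow_succ']; exact linT_mul_mem t k ih

theorem linT_pow_apply (t x : EuclideanSpace ℝ (Fin n)) (k : ℕ) : (linT t ^ k).1 x = (inner ℝ x t) ^ k := by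
  have : (linT t ^ k).1 x = ev x (linT t ^ k) := rfl
  rw [this, map_pow, ev_apply, linT_apply]

/-- a function orthogonal to all polynomials vanishes -/
theorem orth_pol (Q : Dat n) (g : Lp ℝ 2 (gm Q))
    (h : ∀ d, ∀ f ∈ Pol n d, inner ℝ (jj Q f) g = 0) : g = 0 := by
  have hgL : MemLp (fun x => g x) 2 (gm Q) := Lp.memLp g
  have hgi : Integrable (fun x => g x) (gm Q) := hgL.integrable (by norm_num)
  have hz : (fun x => g x) =ᵐ[gm Q] 0 := by
    refine eq_zero_of_char hgi (fun t => ?_)
    -- series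
    have hexp : Integrable (fun x => Real.exp (‖t‖ * ‖x‖) * g x) (gm Q) :=
      (memLp_exp Q ‖t‖).integrable_mul hgL
    set F : ℕ → EuclideanSpace ℝ (Fin n) → ℂ := fun k x =>
      ((inner ℝ x t * Complex.I : ℂ) ^ k / (k.factorial : ℂ)) * (g x : ℂ) with hF
    have hpw : ∀ k, Integrable (fun x => (linT t ^ k).1 x * g x) (gm Q) := fun k =>
      (memLp_ta Q (linT t ^ k)).integrable_mul hgL
    have hFi : ∀ k, Integrable (F k) (gm Q) := by
      intro k
      have h1 : Integrable (fun x => (Complex.I ^ k / (k.factorial : ℂ)) * (((linT t ^ k).1 x * g x : ℝ) : ℂ)) (gm Q) :=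
        ((hpw k).ofReal (𝕜 := ℂ)).const_mul (Complex.I ^ k / (k.factorial : ℂ))
      refine h1.congr (Eventually.of_forall fun x => ?_)
      simp only [hF, linT_pow_apply]
      push_cast
      rw [mul_pow]; ring
    have hFz : ∀ k, ∫ x, F k x ∂(gm Q) = 0 := by
      intro k
      have h1 : ∫ x, (linT t ^ k).1 x * g x ∂(gm Q) = 0 := by
        rw [← inner_jj_left]; exact h k _ (linT_pow_mem t k)
      have h2 : ∀ x, F k x = (Complex.I ^ k / (k.factorial : ℂ)) * (((linT t ^ k).1 x * g x : ℝ) : ℂ) := by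
        intro x
        simp only [hF, linT_pow_apply]
        push_cast
        rw [mul_pow]; ring
      simp only [h2]
      rw [integral_const_mul, integral_complex_ofReal, h1]
      simp
    have hnorm : ∀ k x, ‖F k x‖ ≤ (‖t‖ * ‖x‖) ^ k / k.factorial * |g x| := by
      intro k x
      simp only [hF]
      rw [norm_mul, norm_div, norm_pow, norm_mul, Complex.norm_I, mul_one, Complex.norm_natCast]
      have e1 : ‖((inner ℝ x t : ℝ) : ℂ)‖ ≤ ‖t‖ * ‖x‖ := by
        rw [Complex.norm_real]
        refine (norm_inner_le_norm _ _).trans (le_of_eq (mul_comm _ _))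
      have e2 : ‖(g x : ℂ)‖ = |g x| := by rw [Complex.norm_real]; rfl
      rw [e2]
      gcongr
    have hsum : Summable (fun k => ∫ x, ‖F k x‖ ∂(gm Q)) := by
      refine summable_of_sum_le (c := ∫ x, ‖Real.exp (‖t‖ * ‖x‖) * g x‖ ∂(gm Q))
        (fun k => integral_nonneg (fun x => norm_nonneg _)) (fun u => ?_)
      rw [← integral_finsetSum _ (fun k _ => (hFi k).norm)]
      refine integral_mono (integrable_finsetSum _ (fun k _ => (hFi k).norm)) hexp.norm (fun x => ?_)
      show ∑ k ∈ u, ‖F k x‖ ≤ ‖Real.exp (‖t‖ * ‖x‖) * g x‖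
      rw [norm_mul, Real.norm_of_nonneg (Real.exp_pos _).le]
      have h1 : ∑ k ∈ u, ‖F k x‖ ≤ (∑ k ∈ u, (‖t‖ * ‖x‖) ^ k / k.factorial) * |g x| := by
        rw [sum_mul]; exact sum_le_sum (fun k _ => hnorm k x)
      have h2 : ∑ k ∈ u, (‖t‖ * ‖x‖) ^ k / (k.factorial : ℝ) ≤ Real.exp (‖t‖ * ‖x‖) := by
        have hs := NormedSpace.expSeries_div_hasSum_exp (𝔸 := ℝ) (‖t‖ * ‖x‖)
        rw [← Real.exp_eq_exp_ℝ] at hs
        exact sum_le_hasSum u (fun k _ => by positivity) hs
      refine h1.trans ?_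
      exact mul_le_mul_of_nonneg_right h2 (abs_nonneg _)
    have hS := hasSum_integral_of_summable_integral_norm hFi hsum
    simp only [hFz] at hS
    have hval : ∫ x, ∑' k, F k x ∂(gm Q) = 0 := (hS.unique hasSum_zero)
    rw [← hval]
    refine integral_congr_ae (Eventually.of_forall fun x => ?_)
    show (g x : ℂ) * Complex.exp (inner ℝ x t * Complex.I) = ∑' k, F k x
    have hs := NormedSpace.expSeries_div_hasSum_exp (𝔸 := ℂ) (inner ℝ x t * Complex.I : ℂ)
    rw [← Complex.exp_eq_exp_ℂ] at hs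
    have := hs.mul_right (g x : ℂ)
    rw [this.tsum_eq]; ring
  exact Lp.eq_zero_iff_ae_eq_zero.mpr hz

end Vale.Agent.P227.M.GAL
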