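import Vale.Agent.P227.M.GAL.Inst

/-! # P227/M/GAL: bounds for `tau`, multipliers with bounded derivatives, the operator data -/

namespace Vale.Agent.P227.M.GAL

open MeasureTheory Function Finset Matrix
open Vale.Agent.P227.M.IDI

variable {n : ℕ}

theorem dot_inv_upper (H T : Matrix (Fin n) (Fin n) ℝ) (hHT : H * T = 1) (c : ℝ) (hc : 0 < c)
    (lo : ∀ v : Fin n → ℝ, c * (v ⬝ᵥ v) ≤ v ⬝ᵥ (H *ᵥ v)) (v : Fin n → ℝ) :
    v ⬝ᵥ (T *ᵥ v) ≤ c⁻¹ * (v ⬝ᵥ v) := by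
  set w := T *ᵥ v with hw
  have hv : H *ᵥ w = v := by rw [hw, mulVec_mulVec, hHT, one_mulVec]
  have h1 := lo w
  rw [hv, dotProduct_comm w v] at h1
  have hww : 0 ≤ w ⬝ᵥ w := by
    simp only [dotProduct]; exact sum_nonneg (fun i _ => mul_self_nonneg _)
  have hvv : 0 ≤ v ⬝ᵥ v := by
    simp only [dotProduct]; exact sum_nonneg (fun i _ => mul_self_nonneg _)
  have hz : 0 ≤ (v - c • w) ⬝ᵥ (v - c • w) := by
    simp only [dotProduct]; exact sum_nonneg (fun i _ => mul_self_nonneg _)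
  have hz2 : (v - c • w) ⬝ᵥ (v - c • w) = v ⬝ᵥ v - 2 * c * (v ⬝ᵥ w) + c ^ 2 * (w ⬝ᵥ w) := by
    rw [sub_dotProduct, dotProduct_sub, dotProduct_sub, smul_dotProduct, dotProduct_smul, smul_dotProduct,
      dotProduct_smul, dotProduct_comm w v]
    simp only [smul_eq_mul]; ring
  rw [hz2] at hz
  have h2 : c ^ 2 * (w ⬝ᵥ w) ≤ c * (v ⬝ᵥ w) := by nlinarith
  have h3 : c * (v ⬝ᵥ w) ≤ v ⬝ᵥ v := by linarith
  rw [inv_mul_eq_div, le_div_iff₀ hc]
  linarith

theorem dot_inv_lower (H T : Matrix (Fin n) (Fin n) ℝ) (hHT : H * T = 1) (hs : Hᵀ = H) (C : ℝ) (hC : 0 < C)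
    (hlo : ∀ v : Fin n → ℝ, 0 ≤ v ⬝ᵥ (H *ᵥ v))
    (hi : ∀ v : Fin n → ℝ, v ⬝ᵥ (H *ᵥ v) ≤ C * (v ⬝ᵥ v)) (v : Fin n → ℝ) :
    C⁻¹ * (v ⬝ᵥ v) ≤ v ⬝ᵥ (T *ᵥ v) := by
  set w := T *ᵥ v with hw
  have hv : H *ᵥ w = v := by rw [hw, mulVec_mulVec, hHT, one_mulVec]
  have h1 := hlo (w - C⁻¹ • v)
  have h2 := hi v
  have e : w ⬝ᵥ (H *ᵥ v) = v ⬝ᵥ v := by
    rw [dotProduct_mulVec, ← mulVec_transpose, hs, hv]
  rw [mulVec_sub, mulVec_smul, hv, sub_dotProduct, dotProduct_sub, dotProduct_sub, smul_dotProduct,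
    dotProduct_smul, smul_dotProduct, dotProduct_smul, e, dotProduct_comm w v] at h1
  simp only [smul_eq_mul] at h1
  have h3 : C⁻¹ * (C⁻¹ * (v ⬝ᵥ (H *ᵥ v))) ≤ C⁻¹ * (v ⬝ᵥ v) := by
    have h4 : C⁻¹ * (v ⬝ᵥ (H *ᵥ v)) ≤ v ⬝ᵥ v := by
      rw [inv_mul_le_iff₀ hC]; exact h2
    exact mul_le_mul_of_nonneg_left h4 (inv_pos.mpr hC).le
  linarith

theorem quad_eq (M : Matrix (Fin n) (Fin n) ℝ) (v : Fin n → ℝ) :
    v ⬝ᵥ (M *ᵥ v) = ∑ i, ∑ j, v i * M i j * v j := by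
  simp only [dotProduct, mulVec, mul_sum]
  exact sum_congr rfl (fun i _ => sum_congr rfl (fun j _ => by ring))

/-- `tau` at a point -/
noncomputable def tx (P : Dat n) (x : EuclideanSpace ℝ (Fin n)) : Matrix (Fin n) (Fin n) ℝ :=
  fun i j => (P.tau i j).1 x

theorem hx_mul_tx (P : Dat n) (x : EuclideanSpace ℝ (Fin n)) : P.hx x * tx P x = 1 := by
  ext i j
  have h := congrFun (congrFun P.mul_tau i) j
  rw [Matrix.mul_apply] at h
  have h2 := congrArg (ev x) h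
  rw [map_sum] at h2
  rw [Matrix.mul_apply, one_apply]
  simp only [map_mul, ev_apply] at h2
  refine Eq.trans h2 ?_
  rw [one_apply]
  split_ifs
  · rfl
  · rfl

theorem tau_upper (P : Dat n) (x : EuclideanSpace ℝ (Fin n)) (v : Fin n → ℝ) :
    ∑ i, ∑ j, v i * (P.tau i j).1 x * v j ≤ P.c⁻¹ * ∑ i, v i * v i := by
  have h := dot_inv_upper (P.hx x) (tx P x) (hx_mul_tx P x) P.c P.hc (by
    intro v
    have := P.lo x v
    rw [quad_eq]
    simp only [dotProduct]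
    refine le_trans (le_of_eq ?_) this
    congr 1
    exact sum_congr rfl (fun i _ => by ring)) v
  rw [quad_eq] at h
  exact h

theorem tau_lower (P : Dat n) (x : EuclideanSpace ℝ (Fin n)) (v : Fin n → ℝ) :
    (max P.C 1)⁻¹ * ∑ i, v i * v i ≤ ∑ i, ∑ j, v i * (P.tau i j).1 x * v j := by
  have h := dot_inv_lower (P.hx x) (tx P x) (hx_mul_tx P x) (by
    ext i j
    exact congrArg (fun f : TA n => f.1 x) (hess_symm P.ψ j i)) (max P.C 1) (by positivity)
    (by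
      intro v
      have h1 := P.lo x v
      rw [quad_eq]
      refine le_trans ?_ h1
      have := P.hc
      have : 0 ≤ ∑ i, v i ^ 2 := sum_nonneg (fun i _ => sq_nonneg _)
      positivity)
    (by
      intro v
      have h1 := P.hi x v
      rw [quad_eq]
      refine le_trans h1 ?_
      have e : ∑ i, v i ^ 2 = v ⬝ᵥ v := by
        simp only [dotProduct]; exact sum_congr rfl (fun i _ => by ring)
      rw [e]
      have h0 : 0 ≤ v ⬝ᵥ v := by
        rw [← e]; exact sum_nonneg (fun i _ => sq_nonneg _)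
      exact mul_le_mul_of_nonneg_right (le_max_left _ _) h0) v
  rw [quad_eq] at h
  exact h

/-- bounded functions -/
def Bdd (f : TA n) : Prop := ∃ C : ℝ, ∀ x, |f.1 x| ≤ C

theorem tau_bdd (P : Dat n) (a b : Fin n) : Bdd (P.tau a b) := by
  classical
  -- polarisation : |tau_ab| ≤ tau(e_a+e_b)/2 + ...
  refine ⟨4 * P.c⁻¹, fun x => ?_⟩
  have hup := tau_upper P x
  have hlo := tau_lower P x
  have hpos : ∀ v : Fin n → ℝ, 0 ≤ ∑ i, ∑ j, v i * (P.tau i j).1 x * v j := by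
    intro v
    refine le_trans ?_ (hlo v)
    have : 0 ≤ ∑ i, v i * v i := sum_nonneg (fun i _ => mul_self_nonneg _)
    positivity
  have hc := P.hc
  have hci : 0 < P.c⁻¹ := inv_pos.mpr hc
  -- bilinear form
  set Bf : (Fin n → ℝ) → (Fin n → ℝ) → ℝ := fun v w => ∑ i, ∑ j, v i * (P.tau i j).1 x * w j with hBf
  have hsym : (P.tau a b).1 x = (P.tau b a).1 x := by rw [P.tau_symm]
  have e1 : ∀ (i j : Fin n), Bf (Pi.single i 1) (Pi.single j 1) = (P.tau i j).1 x := by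
    intro i j
    simp only [hBf]
    rw [sum_eq_single i, sum_eq_single j]
    · simp
    · intro k _ hk; simp [Pi.single_eq_of_ne hk]
    · intro h; exact absurd (mem_univ _) h
    · intro k _ hk; simp [Pi.single_eq_of_ne hk]
    · intro h; exact absurd (mem_univ _) h
  have hadd : ∀ v w : Fin n → ℝ, Bf (v + w) (v + w) = Bf v v + Bf v w + Bf w v + Bf w w := by
    intro v w
    simp only [hBf, Pi.add_apply, ← sum_add_distrib]
    exact sum_congr rfl (fun i _ => sum_congr rfl (fun j _ => by ring))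
  have hsub : ∀ v w : Fin n → ℝ, Bf (v - w) (v - w) = Bf v v - Bf v w - Bf w v + Bf w w := by
    intro v w
    simp only [hBf, Pi.sub_apply, ← sum_sub_distrib, ← sum_add_distrib]
    exact sum_congr rfl (fun i _ => sum_congr rfl (fun j _ => by ring))
  have h1 := hadd (Pi.single a 1) (Pi.single b 1)
  have h2 := hsub (Pi.single a 1) (Pi.single b 1)
  rw [e1, e1, e1, e1, ← hsym] at h1 h2
  have p1 := hpos (Pi.single a 1 + Pi.single b 1)
  have p2 := hpos (Pi.single a 1 - Pi.single b 1)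
  have q1 := hup (Pi.single a 1)
  have q2 := hup (Pi.single b 1)
  have n1 : ∀ i : Fin n, ∑ k, (Pi.single i (1 : ℝ) : Fin n → ℝ) k * (Pi.single i (1 : ℝ) : Fin n → ℝ) k = 1 := by
    intro i
    rw [sum_eq_single i]
    · simp
    · intro k _ hk; simp [Pi.single_eq_of_ne hk]
    · intro h; exact absurd (mem_univ _) h
  rw [n1] at q1 q2
  have r1 : (P.tau a a).1 x ≤ P.c⁻¹ * 1 := by rw [← e1 a a]; exact q1
  have r2 : (P.tau b b).1 x ≤ P.c⁻¹ * 1 := by rw [← e1 b b]; exact q2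
  have s1 : 0 ≤ Bf (Pi.single a 1 + Pi.single b 1) (Pi.single a 1 + Pi.single b 1) := p1
  have s2 : 0 ≤ Bf (Pi.single a 1 - Pi.single b 1) (Pi.single a 1 - Pi.single b 1) := p2
  rw [h1] at s1
  rw [h2] at s2
  rw [abs_le]
  constructor <;> linarith

/-- `Hs` = a set of bounded temperate functions closed under derivatives, containing the Hessian entries -/
structure BD (P : Dat n) where
  Hs : Set (TA n)
  mem : ∀ a b, hess P.ψ a b ∈ Hs
  cl : ∀ g ∈ Hs, ∀ a, pd a g ∈ Hs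
  bd : ∀ g ∈ Hs, Bdd g

variable {P : Dat n}

/-- generators -/
def BD.G (K : BD P) : Set (TA n) := {g | ∃ a b, g = P.tau a b} ∪ K.Hs

theorem BD.tau_mem (K : BD P) (a b : Fin n) : P.tau a b ∈ Algebra.adjoin ℝ K.G :=
  Algebra.subset_adjoin (Or.inl ⟨a, b, rfl⟩)

theorem BD.hs_mem (K : BD P) {g : TA n} (hg : g ∈ K.Hs) : g ∈ Algebra.adjoin ℝ K.G :=
  Algebra.subset_adjoin (Or.inr hg)

theorem BD.closed (K : BD P) (a : Fin n) (f : TA n) (hf : f ∈ Algebra.adjoin ℝ K.G) :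
    pd a f ∈ Algebra.adjoin ℝ K.G := by
  induction hf using Algebra.adjoin_induction with
  | mem g hg =>
    rcases hg with ⟨i, j, rfl⟩ | hg
    · rw [P.der_tau]
      exact Subalgebra.neg_mem _ (Subalgebra.sum_mem _ (fun f _ => Subalgebra.sum_mem _ (fun e _ =>
        Subalgebra.mul_mem _ (Subalgebra.mul_mem _ (K.tau_mem _ _) (K.hs_mem (K.cl _ (K.mem _ _) _)))
          (K.tau_mem _ _))))
    · exact K.hs_mem (K.cl g hg a)
  | algebraMap r =>
    rw [(pd a).map_algebraMap]; exact Subalgebra.zero_mem _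
  | add f g _ _ h1 h2 => rw [map_add]; exact Subalgebra.add_mem _ h1 h2
  | mul f g hf hg h1 h2 =>
    rw [(pd a).leibniz, smul_eq_mul, smul_eq_mul]
    exact Subalgebra.add_mem _ (Subalgebra.mul_mem _ hf h2) (Subalgebra.mul_mem _ hg h1)

theorem BD.bdd (K : BD P) (f : TA n) (hf : f ∈ Algebra.adjoin ℝ K.G) : Bdd f := by
  induction hf using Algebra.adjoin_induction with
  | mem g hg =>
    rcases hg with ⟨i, j, rfl⟩ | hg
    · exact tau_bdd P i j
    · exact K.bd g hg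
  | algebraMap r => exact ⟨|r|, fun x => le_rfl⟩
  | add f g _ _ h1 h2 =>
    obtain ⟨A, hA⟩ := h1
    obtain ⟨B, hB⟩ := h2
    exact ⟨A + B, fun x => (abs_add_le (f.1 x) (g.1 x)).trans (add_le_add (hA x) (hB x))⟩
  | mul f g _ _ h1 h2 =>
    obtain ⟨A, hA⟩ := h1
    obtain ⟨B, hB⟩ := h2
    refine ⟨A * B, fun x => ?_⟩
    have : |(f * g).1 x| = |f.1 x| * |g.1 x| := abs_mul (f.1 x) (g.1 x)
    rw [this]
    exact mul_le_mul (hA x) (hB x) (abs_nonneg _) ((abs_nonneg _).trans (hA x))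

theorem Ev_mono (Q : Dat n) {f g : TA n} (h : ∀ x, f.1 x ≤ g.1 x) : Q.Ev f ≤ Q.Ev g := by
  have := Q.Ev_nonneg (g - f) (fun x => by
    have : (g - f).1 x = g.1 x - f.1 x := rfl
    rw [this]; linarith [h x])
  rw [map_sub] at this
  linarith

/-- multipliers -/
noncomputable def BD.bcls (K : BD P) (s : ℝ) (hs : 0 < s) : GAlg.BCls (gAlg n s hs) where
  B := {f | f ∈ Algebra.adjoin ℝ K.G}
  closed := fun b hb a => K.closed a b hb
  bound := by
    intro b hb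
    obtain ⟨C, hC⟩ := K.bdd b hb
    refine ⟨C ^ 2, sq_nonneg _, fun F => ?_⟩
    have h1 : (gAlg n s hs).q 0 (b * F) = (gdat n s hs).Ev ((b * F) * (b * F)) := rfl
    have h2 : C ^ 2 * (gAlg n s hs).q 0 F = (gdat n s hs).Ev ((C ^ 2) • (F * F)) := by
      rw [map_smul]; rfl
    rw [h1, h2]
    refine Ev_mono _ (fun x => ?_)
    have e1 : ((b * F) * (b * F)).1 x = (b.1 x) ^ 2 * (F.1 x) ^ 2 := by
      show (b.1 x * F.1 x) * (b.1 x * F.1 x) = _
      ring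
    have e2 : ((C ^ 2) • (F * F)).1 x = C ^ 2 * (F.1 x) ^ 2 := by
      show C ^ 2 * (F.1 x * F.1 x) = _
      ring
    rw [e1, e2]
    refine mul_le_mul_of_nonneg_right ?_ (sq_nonneg _)
    have := hC x
    have h0 := abs_nonneg (b.1 x)
    rw [← sq_abs (b.1 x)]
    exact pow_le_pow_left₀ h0 this 2

theorem Ev_quad_apply (Q : Dat n) (t : Fin n → Fin n → TA n) (G : Fin n → TA n) :
    ∑ a, ∑ b, Q.Ev (t a b * (G a * G b)) = Q.Ev (∑ a, ∑ b, t a b * (G a * G b)) := by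
  simp only [map_sum]

theorem val_sum {ι : Type*} (u : Finset ι) (f : ι → TA n) (x : EuclideanSpace ℝ (Fin n)) :
    (∑ i ∈ u, f i).1 x = ∑ i ∈ u, (f i).1 x := by
  have := map_sum (ev x) f u
  simp only [ev_apply] at this
  exact this

theorem diff_low (P Q : Dat n) (G : Fin n → TA n) :
    (max P.C 1)⁻¹ * ∑ a, Q.Ev (G a * G a) ≤ ∑ a, ∑ b, Q.Ev (P.tau a b * (G a * G b)) := by
  have e0 : ∑ a, ∑ b, Q.Ev (P.tau a b * (G a * G b)) = Q.Ev (∑ a, ∑ b, P.tau a b * (G a * G b)) :=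
    Ev_quad_apply Q (fun a b => P.tau a b) G
  rw [e0, ← map_sum, ← smul_eq_mul, ← map_smul]
  refine Ev_mono _ (fun x => ?_)
  have e2 : ((max P.C 1)⁻¹ • ∑ a, G a * G a).1 x = (max P.C 1)⁻¹ * ∑ a, (G a).1 x * (G a).1 x := by
    have : ((max P.C 1)⁻¹ • ∑ a, G a * G a).1 x = (max P.C 1)⁻¹ * (∑ a, G a * G a).1 x := rfl
    rw [this, val_sum]; rfl
  rw [e2, val_sum]
  refine (tau_lower P x (fun a => (G a).1 x)).trans (le_of_eq ?_)
  refine sum_congr rfl (fun a _ => ?_)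
  rw [val_sum]
  refine sum_congr rfl (fun b _ => ?_)
  show _ = (P.tau a b).1 x * ((G a).1 x * (G b).1 x)
  ring

theorem diff_upp (P Q : Dat n) (G : Fin n → TA n) :
    ∑ a, ∑ b, Q.Ev (P.tau a b * (G a * G b)) ≤ P.c⁻¹ * ∑ a, Q.Ev (G a * G a) := by
  have e0 : ∑ a, ∑ b, Q.Ev (P.tau a b * (G a * G b)) = Q.Ev (∑ a, ∑ b, P.tau a b * (G a * G b)) :=
    Ev_quad_apply Q (fun a b => P.tau a b) G
  rw [e0, ← map_sum, ← smul_eq_mul, ← map_smul]
  refine Ev_mono _ (fun x => ?_)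
  have e2 : (P.c⁻¹ • ∑ a, G a * G a).1 x = P.c⁻¹ * ∑ a, (G a).1 x * (G a).1 x := by
    have : (P.c⁻¹ • ∑ a, G a * G a).1 x = P.c⁻¹ * (∑ a, G a * G a).1 x := rfl
    rw [this, val_sum]; rfl
  rw [e2, val_sum]
  refine le_trans (le_of_eq ?_) (tau_upper P x (fun a => (G a).1 x))
  refine sum_congr rfl (fun a _ => ?_)
  rw [val_sum]
  refine sum_congr rfl (fun b _ => ?_)
  show (P.tau a b).1 x * ((G a).1 x * (G b).1 x) = _
  ring

/-- the diffusion data with weight parameter `s = c/2` -/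
noncomputable def BD.diff (K : BD P) : GAlg.Diff (gAlg n (P.c / 2) (half_pos P.hc)) (K.bcls _ _) where
  τ := fun a b => P.tau a b
  mem := fun a b => K.tau_mem a b
  κ0 := (max P.C 1)⁻¹
  κ1 := P.c⁻¹
  κ0_pos := by positivity
  low := fun G => diff_low P _ G
  upp := fun G => diff_upp P _ G
  small := by
    show P.c / 2 * P.c⁻¹ ≤ 1 / 2
    have := P.hc
    field_simp
    exact le_rfl

end Vale.Agent.P227.M.GAL
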